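import Crest.Agent.X212.Gls64.Mod
import Crest.Agent.X212.Rf65.Abs
import Crest.Agent.X212.Fred93.Cpt
import Crest.Agent.X212.Gr93.Row
import Crest.Agent.X212.Sw21.Fac
import Crest.Agent.X212.Gl67.Abs
import Crest.Agent.X212.Gl50.Face
import Crest.Agent.X212.Fht9.Main

-- ▼ part X212/Gls64/Ag
section

/-!
# Row 212, GL-S (helper64): the abstract gluing lemma and the commutator estimate
-/

set_option autoImplicit false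
set_option linter.unusedSectionVars false
noncomputable section
open Set Function Filter Topology Metric

namespace Crest.Agent.X212.Gls64
open Neck67 (dn up Bd cS Near)

variable {C Y E F : Type} [NormedAddCommGroup C] [NormedSpace ℝ C] [CompleteSpace C]
  [NormedAddCommGroup Y] [NormedSpace ℝ Y] [CompleteSpace Y] [NormedAddCommGroup E]
  [NormedSpace ℝ E] [CompleteSpace E] [NormedAddCommGroup F] [NormedSpace ℝ F] [CompleteSpace F]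
  {P : C →L[ℝ] E} {P' : Y →L[ℝ] F} {H : C → Y} {K r ε : ℝ}

theorem exists_rng {B : ℝ} (h : ∀ u, ‖u‖ ≤ B * ‖P u‖) :
    IsClosed (range P) ∧ ∃ e : C ≃L[ℝ] P.range, ∀ u, ‖e u‖ = ‖P u‖ := by
  have h1 : IsClosed (range P) := Fred93.isClosed_range_of_bound h
  have h2 : Injective P := (injective_iff_map_eq_zero _).2 fun u hu => by
    have := h u
    rw [hu, norm_zero, mul_zero] at this
    exact norm_le_zero_iff.1 this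
  exact ⟨h1, P.equivRange h2 h1, fun _ => rfl⟩

theorem cht_of_est {B B' : ℝ} (hP : ∀ u, ‖u‖ ≤ B * ‖P u‖) (hP' : ∀ f, ‖f‖ ≤ B' * ‖P' f‖)
    (hK : 0 ≤ K) (hr : 0 ≤ r) (hd : ∀ u, ‖P u‖ ≤ r → DifferentiableAt ℝ H u)
    (fr : Fred93.Fr (fderiv ℝ H 0) 0) (low : ∀ w, ‖P w‖ ≤ K * ‖P' (fderiv ℝ H 0 w)‖)
    (dif : ∀ u, ‖P u‖ ≤ r → ∀ w, ‖P' (fderiv ℝ H u w - fderiv ℝ H 0 w)‖ ≤ ε * ‖P w‖)
    (bd : ∀ u, ‖P u‖ ≤ r → ∀ w, ‖P' (fderiv ℝ H u w)‖ ≤ 2 * K * ‖P w‖) (hε0 : 0 ≤ ε)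
    (hε : K * ε ≤ 1 / 2) : Cht P P' H (2 * K) r := by
  obtain ⟨c1, e, he⟩ := exists_rng hP
  obtain ⟨c2, J, hJ⟩ := exists_rng hP'
  have : CompleteSpace P.range := c1.completeSpace_coe
  have : CompleteSpace P'.range := c2.completeSpace_coe
  have he' : ∀ v, ‖P (e.symm v)‖ = ‖v‖ := fun v => by rw [← he, e.apply_symm_apply]
  let G : P.range → P'.range := fun v => J (H (e.symm v))
  let G' : P.range → P.range →L[ℝ] P'.range := fun v =>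
    (J : Y →L[ℝ] _) ∘L fderiv ℝ H (e.symm v) ∘L (e.symm : _ →L[ℝ] C)
  have m : ∀ {v : P.range}, v ∈ closedBall (0 : P.range) r → ‖P (e.symm v)‖ ≤ r := fun hv =>
    (he' _).trans_le (mem_closedBall_zero_iff.1 hv)
  have m' : ∀ {u}, ‖P u‖ ≤ r → e u ∈ closedBall (0 : P.range) r := fun hu =>
    mem_closedBall_zero_iff.2 ((he _).trans_le hu)
  have d : ∀ v ∈ closedBall (0 : P.range) r, HasFDerivAt G (G' v) v := fun v hv =>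
    (J : Y →L[ℝ] P'.range).hasFDerivAt.comp v ((hd _ (m hv)).hasFDerivAt.comp v
      e.symm.hasFDerivAt)
  obtain ⟨L, hL, hn⟩ := Rf65.exists_equiv_of_low (A := G' 0) (K := K)
    (by simpa only [G', map_zero] using fr.conj e.symm J) hK fun v => by
      rw [← he' v]
      refine (low _).trans_eq ?_
      simp only [G', map_zero, ← hJ]; rfl
  have hN : Near L G G' 0 r := ⟨d, fun v hv => by
    refine le_trans (mul_le_mul hn (ContinuousLinearMap.opNorm_le_bound _ hε0 fun w => ?_)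
      (norm_nonneg _) hK) hε
    rw [← he' w]
    refine le_of_eq_of_le ?_ (dif _ (m hv) _)
    rw [← hJ, map_sub J, hL]
    simp only [G', map_zero]; rfl⟩
  have k : ∀ a : ℝ, 0 ≤ a → 2 * ‖(L.symm : P'.range →L[ℝ] P.range)‖ * a ≤ 2 * K * a :=
    fun a ha => by gcongr
  have g : ∀ u u', ‖G (e u) - G (e u')‖ = ‖P' (H u - H u')‖ := fun u u' => by
    simp only [G, e.symm_apply_apply, ← map_sub, hJ]
  refine ⟨⟨B, hP⟩, fun f hf => ?_, fun u u' hu hu' => ?_, fun u hu => ?_, fun u hu => ?_⟩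
  · obtain ⟨v, hv, ev⟩ := hN.ex (y := J f) ((k _ (norm_nonneg _)).trans (by
      simpa only [G, map_zero, ← map_sub, hJ] using hf))
    exact ⟨_, m hv, J.injective ev⟩
  · have := (hN.low (m' hu') (m' hu)).trans (k _ (norm_nonneg _))
    rwa [← map_sub, he, g] at this
  · have := (convex_closedBall (0 : P.range) r).norm_image_sub_le_of_norm_hasFDerivWithin_le
      (C := 2 * K) (fun v hv => (d v hv).hasFDerivWithinAt) (fun v hv =>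
        ContinuousLinearMap.opNorm_le_bound _ (by positivity) fun w => by
          rw [← he' w]
          exact le_of_eq_of_le (hJ _) (bd _ (m hv) _)) (m' (u := 0) (by simpa using hr)) (m' hu)
    rwa [g, ← map_sub, he, sub_zero] at this
  · obtain ⟨A, hA, -⟩ := hN.inv (m' hu)
    intro f
    obtain ⟨v, hv⟩ := A.surjective (J f)
    refine ⟨e.symm v, J.injective ?_⟩
    have := DFunLike.congr_fun hA v
    simp only [G', e.symm_apply_apply] at this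
    exact this.symm.trans hv

/-- **abstract gluing** -/
theorem ag {Q : E →L[ℝ] C} {Q' : F →L[ℝ] Y} {χE : E →L[ℝ] E} {χF : F →L[ℝ] F} {S : E → F}
    {L : E ≃L[ℝ] F} {B : Set ((E →L[ℝ] E) × (F →L[ℝ] F))} (hK : 1 ≤ K) (hr : 0 < r)
    (i1 : ∀ u, Q (χE (P u)) = u) (i2 : ∀ f, Q' (χF (P' f)) = f) (b1 : ‖P ∘L Q‖ ≤ K)
    (b2 : ‖P' ∘L Q'‖ ≤ K) (b3 : ‖χE‖ ≤ K) (b4 : ‖χF‖ ≤ K) (b5 : ‖(L : E →L[ℝ] F)‖ ≤ K)
    (b6 : ‖(L.symm : F →L[ℝ] E)‖ ≤ K)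
    (hB : ∀ β ∈ B, (∀ v, χE (β.1 v) = χE v) ∧ (∀ f, χF (β.2 f) = χF f) ∧ ‖β.2‖ ≤ K ∧
      ∀ u, ‖P u‖ ≤ 2 * r → β.2 (P' (H u)) = β.2 (S (P u)))
    (com : ∀ v, ∃ β ∈ B, ‖L (β.1 v) - β.2 (L v)‖ ≤ ε * ‖v‖)
    (hd : ∀ u, ‖P u‖ ≤ r → DifferentiableAt ℝ H u)
    (c1 : ∀ v, ‖v‖ ≤ r → DifferentiableAt ℝ S v ∧ ‖fderiv ℝ S v - L‖ ≤ ε)
    (fr : Fred93.Fr (fderiv ℝ H 0) 0) (hε : 8 * K ^ 7 * ε ≤ 1) :
    Cht P P' H (4 * K ^ 4) r ∧ ‖P' (H 0)‖ ≤ K ^ 3 * ‖S 0‖ := by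
  have K0 : 0 < K := one_pos.trans_le hK
  have z : ‖P 0‖ ≤ r := by simpa using hr.le
  have ε0 : 0 ≤ ε := (norm_nonneg _).trans (c1 _ z).2
  have k1 : K ^ 4 * ε ≤ 1 / 8 := by
    have : K ^ 4 ≤ K ^ 7 := pow_le_pow_right₀ hK (by norm_num)
    nlinarith
  have k2 : ε ≤ K := by
    have : 1 ≤ K ^ 4 := one_le_pow₀ hK
    nlinarith
  have u1 : ∀ w, ∀ β ∈ B, ‖P w‖ ≤ K ^ 2 * ‖β.1 (P w)‖ := fun w β hβ => by
    have a1 := (P ∘L Q).le_of_opNorm_le b1 (χE (P w))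
    have a2 := χE.le_of_opNorm_le b3 (β.1 (P w))
    rw [ContinuousLinearMap.comp_apply, i1, ← (hB β hβ).1] at a1
    nlinarith
  have u2 : ∀ f, ∀ β ∈ B, ‖P' f‖ ≤ K ^ 2 * ‖β.2 (P' f)‖ := fun f β hβ => by
    have a1 := (P' ∘L Q').le_of_opNorm_le b2 (χF (P' f))
    have a2 := χF.le_of_opNorm_le b4 (β.2 (P' f))
    rw [ContinuousLinearMap.comp_apply, i2, ← (hB β hβ).2.1] at a1
    nlinarith
  have dd : ∀ β ∈ B, ∀ u, ‖P u‖ ≤ r → ∀ w,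
      β.2 (P' (fderiv ℝ H u w)) = β.2 (fderiv ℝ S (P u) (P w)) := fun β hβ u hu w => by
    have e : ∀ᶠ v in 𝓝 u, β.2 (P' (H v)) = β.2 (S (P v)) :=
      ((P.continuous.norm.tendsto u).eventually_le_const (by linarith : ‖P u‖ < 2 * r)).mono
        (hB β hβ).2.2.2
    exact DFunLike.congr_fun ((β.2.hasFDerivAt.comp u (P'.hasFDerivAt.comp u
      (hd u hu).hasFDerivAt)).unique ((β.2.hasFDerivAt.comp u ((c1 _ hu).1.hasFDerivAt.comp u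
        P.hasFDerivAt)).congr_of_eventuallyEq e)) w
  have cl : ∀ u, ‖P u‖ ≤ r → ∀ v, ‖fderiv ℝ S (P u) v - L v‖ ≤ ε * ‖v‖ := fun u hu v =>
    (fderiv ℝ S (P u) - L).le_of_opNorm_le (c1 _ hu).2 v
  obtain ⟨β, hβ, -⟩ := com 0
  have u3 : ∀ f g, β.2 (P' f) = β.2 g → ‖P' f‖ ≤ K ^ 3 * ‖g‖ := fun f g e => by
    have a1 := u2 f β hβ
    have a2 := β.2.le_of_opNorm_le (hB β hβ).2.2.1 g
    rw [e] at a1
    nlinarith [mul_le_mul_of_nonneg_left a2 (sq_nonneg K)]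
  refine ⟨?_, by simpa using u3 _ _ ((hB β hβ).2.2.2 0 (by linarith))⟩
  rw [show 4 * K ^ 4 = 2 * (2 * K ^ 4) by ring]
  refine cht_of_est (B := ‖Q ∘L χE‖) (B' := ‖Q' ∘L χF‖) (ε := 2 * K ^ 3 * ε)
    (fun u => by simpa [i1] using (Q ∘L χE).le_opNorm (P u))
    (fun f => by simpa [i2] using (Q' ∘L χF).le_opNorm (P' f)) (by positivity) hr.le hd fr
    (fun w => ?_) (fun u hu w => ?_) (fun u hu w => ?_) (by positivity) (by nlinarith)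
  · obtain ⟨γ, hγ, c⟩ := com (P w)
    have a1 := u1 w γ hγ
    have a2 := (L.symm : F →L[ℝ] E).le_of_opNorm_le b6 (L (γ.1 (P w)))
    have a3 := γ.2.le_of_opNorm_le (hB γ hγ).2.2.1 (P' (fderiv ℝ H 0 w))
    have a4 := γ.2.le_of_opNorm_le (hB γ hγ).2.2.1 (fderiv ℝ S (P 0) (P w) - L (P w))
    have a5 := cl 0 z (P w)
    have a6 := norm_add₃_le (a := L (γ.1 (P w)) - γ.2 (L (P w))) (b := γ.2 (P' (fderiv ℝ H 0 w)))
      (c := -γ.2 (fderiv ℝ S (P 0) (P w) - L (P w)))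
    rw [norm_neg, dd γ hγ 0 z, map_sub γ.2] at a6
    rw [ContinuousLinearEquiv.coe_coe, L.symm_apply_apply] at a2
    rw [dd γ hγ 0 z] at a3
    rw [map_sub γ.2] at a4
    rw [show ∀ a b c : F, a - b + c + -(c - b) = a from fun a b c => by abel] at a6
    have p0 := norm_nonneg (P w)
    have a7 : ‖L (γ.1 (P w))‖ ≤ K * ‖P' (fderiv ℝ H 0 w)‖ + 2 * K * (ε * ‖P w‖) := by
      nlinarith [mul_le_mul_of_nonneg_left a5 K0.le, mul_nonneg ε0 p0]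
    have a8 : ‖P w‖ ≤ K ^ 3 * ‖L (γ.1 (P w))‖ := by
      nlinarith [mul_le_mul_of_nonneg_left a2 (sq_nonneg K)]
    nlinarith [mul_le_mul_of_nonneg_left a7 (pow_pos K0 3).le,
      mul_le_mul_of_nonneg_right k1 p0]
  · have a1 := u3 (fderiv ℝ H u w - fderiv ℝ H 0 w)
      ((fderiv ℝ S (P u) (P w) - L (P w)) - (fderiv ℝ S (P 0) (P w) - L (P w))) (by
        simp only [map_sub, dd β hβ u hu, dd β hβ 0 z]; abel)
    have a2 := (norm_sub_le _ _).trans (add_le_add (cl u hu (P w)) (cl 0 z (P w)))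
    nlinarith [mul_le_mul_of_nonneg_left a2 (pow_pos K0 3).le]
  · have a1 := u3 _ _ (dd β hβ u hu w)
    have a2 := norm_add_le (fderiv ℝ S (P u) (P w) - L (P w)) (L (P w))
    have a3 : ‖L (P w)‖ ≤ K * ‖P w‖ := (L : E →L[ℝ] F).le_of_opNorm_le b5 (P w)
    rw [sub_add_cancel] at a2
    have p0 := norm_nonneg (P w)
    have a4 : ‖fderiv ℝ S (P u) (P w)‖ ≤ 2 * K * ‖P w‖ := by
      nlinarith [cl u hu (P w), mul_le_mul_of_nonneg_right k2 p0]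
    nlinarith [mul_le_mul_of_nonneg_left a4 (pow_pos K0 3).le, mul_nonneg (pow_pos K0 4).le p0]

/-- functions with disjoint supports -/
theorem bd_sum {s : Finset ℕ} {O : ℕ → Set ℝ} (hO : ∀ j, IsClosed (O j))
    (dj : ∀ i j t, t ∈ O i → t ∈ O j → i = j) {ε : ℕ → ℝ} (hε : ∀ j, |ε j| ≤ 1) {A : ℝ}
    (hA : 0 ≤ A) (k : ℕ) : ∀ {c : ℕ → ℝ → ℝ}, (∀ j, Neck67.Sm (c j)) → (∀ j, Bd k (c j) A) →
      (∀ j t, t ∉ O j → c j t = 0) → Bd k (∑ j ∈ s, ε j • c j) A := by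
  have h0 : ∀ {c : ℕ → ℝ → ℝ}, (∀ j t, |c j t| ≤ A) → (∀ j t, t ∉ O j → c j t = 0) →
      ∀ t, |(∑ j ∈ s, ε j • c j) t| ≤ A := fun {c} h1 h2 t => by
    rw [Finset.sum_apply]
    by_cases h : ∃ j ∈ s, t ∈ O j
    · obtain ⟨j, hj, ht⟩ := h
      rw [Finset.sum_eq_single_of_mem j hj fun i _ hi => by
        simp [h2 i t fun h => hi (dj i j t h ht)], Pi.smul_apply, smul_eq_mul, abs_mul]
      nlinarith [hε j, h1 j t, abs_nonneg (c j t), abs_nonneg (ε j)]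
    · rw [Finset.sum_eq_zero fun j hj => by simp [h2 j t fun h' => h ⟨j, hj, h'⟩]]
      simpa using hA
  induction k with
  | zero => exact fun _ h1 h2 => h0 h1 h2
  | succ k ih =>
    intro c h1 h2 h3
    refine ⟨h0 (fun j => (h2 j).1) h3, ?_⟩
    have : deriv (∑ j ∈ s, ε j • c j) = ∑ j ∈ s, ε j • deriv (c j) := funext fun t => by
      rw [deriv_sum fun j _ => ((h1 j).smul (ε j)).diff t, Finset.sum_apply]
      exact Finset.sum_congr rfl fun j _ => deriv_const_smul _ ((h1 j).diff t)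
    rw [this]
    exact ih (fun j => (h1 j).deriv) (fun j => (h2 j).2)
      fun j => Neck67.deriv_zero_off (hO j) (h3 j)

/-- the window round the step at `a` -/
def wd (a : ℝ) : ℝ → ℝ := 1 - dn (a - 4) 1 - up (a + 3) 1

theorem sm_wd (a : ℝ) : Neck67.Sm (wd a) :=
  (Neck67.Sm.one.sub (Neck67.sm_dn le_rfl _)).sub (Neck67.sm_up le_rfl _)

theorem bd_wd (k : ℕ) (a : ℝ) : Bd k (wd a) (3 * cS k) := by
  have h1 : Bd k (1 : ℝ → ℝ) (cS k) := Bd.const (a := 1) (by simpa using Neck67.one_le_cS k)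
  exact (Bd.sub (Neck67.Sm.one.sub (Neck67.sm_dn le_rfl _)).cd (Neck67.sm_up le_rfl _).cd
    (Bd.sub Neck67.Sm.one.cd (Neck67.sm_dn le_rfl _).cd h1 (Neck67.bd_dn k le_rfl _).of_succ)
    (Neck67.bd_up k le_rfl _).of_succ).mono (le_of_eq (by ring))

theorem wd_zero {a t : ℝ} (h : t ∉ Icc (a - 5) (a + 4)) : wd a t = 0 := by
  rcases not_and_or.1 h with h | h
  · simp [wd, Neck67.dn_one one_pos (show t ≤ a - 4 - 1 by linarith [not_le.1 h]),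
      Neck67.up_zero one_pos (show t ≤ a + 3 by linarith [not_le.1 h])]
  · simp [wd, Neck67.dn_zero one_pos (show a - 4 ≤ t by linarith [not_le.1 h]),
      Neck67.up_one one_pos (show a + 3 + 1 ≤ t by linarith [not_le.1 h])]

/-- `L` does not propagate beyond the distance `3` above the height `a₁` -/
def Lc (mE : (ℝ → ℝ) → E →L[ℝ] E) (mF : (ℝ → ℝ) → F →L[ℝ] F) (L : E →L[ℝ] F) (a₁ : ℝ) : Prop :=
  ∀ a, a₁ ≤ a → ∀ b c, Neck67.Sm b → Neck67.Sm c →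
    ((∀ t, a ≤ t → b t = 0) ∧ (∀ t, t ≤ a + 3 → c t = 0) ∨
      (∀ t, t ≤ a → b t = 0) ∧ ∀ t, a - 3 ≤ t → c t = 0) → ∀ v, mF b (L (mE c v)) = 0

/-- **the commutator with a suitable step is small** -/
theorem com {mE : (ℝ → ℝ) → E →L[ℝ] E} {mF : (ℝ → ℝ) → F →L[ℝ] F} {L : E →L[ℝ] F} {k : ℕ}
    {a₁ : ℝ} (hK : 1 ≤ K) (hE : IsM mE k K) (hF : IsM mF k K) (hW : Win mE k K)
    (hL : Lc mE mF L a₁) (hε : 0 < ε) : ∃ n : ℝ, ∀ p, a₁ + 1 ≤ p → 6 ≤ p → ∀ v,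
      ∃ a ∈ Icc p (p + n), ‖L (mE (dn a 1) v) - mF (dn a 1) (L v)‖ ≤ ε * ‖v‖ := by
  have c1 := Neck67.one_le_cS k
  set A := 2 * (K * cS k) * ‖L‖
  have A0 : 0 ≤ A := by positivity
  have key : ∀ a, a₁ + 1 ≤ a → ∀ v,
      ‖L (mE (dn a 1) v) - mF (dn a 1) (L v)‖ ≤ A * ‖mE (wd a) v‖ := fun a ha v => by
    have s0 := Neck67.sm_dn le_rfl a
    have s1 := Neck67.sm_dn le_rfl (a - 4)
    have s2 := Neck67.sm_up le_rfl (a + 3)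
    have b0 := (Neck67.bd_dn k le_rfl a).of_succ
    have e0 : v = mE (wd a) v + mE (dn (a - 4) 1) v + mE (up (a + 3) 1) v := by
      rw [wd, hE.sub (Neck67.Sm.one.sub s1) s2, hE.sub Neck67.Sm.one s1, hE.one]; abel
    have e1 : dn a 1 * dn (a - 4) 1 = dn (a - 4) 1 := funext fun t => by
      rcases le_total (a - 4) t with h | h
      · simp [Neck67.dn_zero one_pos h]
      · simp [Neck67.dn_one one_pos (show t ≤ a - 1 by linarith)]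
    have e2 : dn a 1 * up (a + 3) 1 = 0 := funext fun t => by
      rcases le_total a t with h | h
      · simp [Neck67.dn_zero one_pos h]
      · simp [Neck67.up_zero one_pos (show t ≤ a + 3 by linarith)]
    have e3 := hL (a - 1) (by linarith) _ _ (Neck67.Sm.one.sub s0) s1 (.inr ⟨fun t ht => by
      simp [Neck67.dn_one one_pos ht], fun t ht => Neck67.dn_zero one_pos (by linarith)⟩) v
    have e4 := hL a (by linarith) _ _ s0 s2 (.inl ⟨fun t ht => Neck67.dn_zero one_pos ht,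
      fun t ht => Neck67.up_zero one_pos ht⟩) v
    rw [hF.sub Neck67.Sm.one s0, hF.one, sub_eq_zero] at e3
    have e5 : L (mE (dn a 1) v) - mF (dn a 1) (L v) =
        L (mE (dn a 1) (mE (wd a) v)) - mF (dn a 1) (L (mE (wd a) v)) := by
      conv_lhs => rw [e0]
      simp only [map_add, hE.mul s0 s1, hE.mul s0 s2, e1, e2, hE.zero, map_zero, e4, ← e3]
      abel
    have a1 := (L.le_opNorm _).trans
      (mul_le_mul_of_nonneg_left (hE.bd s0 b0 (mE (wd a) v)) (norm_nonneg _))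
    have a2 := (hF.bd s0 b0 _).trans
      (mul_le_mul_of_nonneg_left (L.le_opNorm (mE (wd a) v)) (by positivity))
    rw [e5]
    exact (norm_sub_le _ _).trans ((add_le_add a1 a2).trans_eq (by ring))
  obtain ⟨n, hn⟩ := exists_nat_gt (A ^ 2 * (K * (3 * cS k) ^ 2) / ε ^ 2)
  have n0 : (0 : ℝ) < n := lt_of_le_of_lt (by positivity) hn
  refine ⟨10 * n, fun p hp hp' v => ?_⟩
  have j0 : ∀ j : ℕ, (0 : ℝ) ≤ j := fun j => j.cast_nonneg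
  have h1 := hW (Finset.range n) (fun j => wd (p + 10 * j)) (3 * cS k) (fun _ => sm_wd _)
    (fun j => wd_zero fun h => by linarith [h.1, j0 j]) (fun ε hε => bd_sum
      (O := fun j => Icc (p + 10 * j - 5) (p + 10 * j + 4)) (fun _ => isClosed_Icc)
      (fun i j t hi hj => by
        have a1 : (i : ℝ) < j + 1 := by linarith [hi.1, hj.2]
        have a2 : (j : ℝ) < i + 1 := by linarith [hi.2, hj.1]
        have a3 : i < j + 1 := by exact_mod_cast a1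
        have a4 : j < i + 1 := by exact_mod_cast a2
        omega) hε (by positivity) k (fun _ => sm_wd _) (fun _ => bd_wd k _) fun _ _ => wd_zero) v
  obtain ⟨j, hj, h2⟩ := Finset.exists_le_of_sum_le (s := Finset.range n)
    (f := fun j : ℕ => ‖mE (wd (p + 10 * j)) v‖ ^ 2) (g := fun _ => K * (3 * cS k) ^ 2 * ‖v‖ ^ 2 / n)
    (Finset.nonempty_range_iff.2 (by exact_mod_cast n0.ne')) (h1.trans_eq (by
      rw [Finset.sum_const, Finset.card_range, nsmul_eq_mul]; field_simp))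
  have j1 : (j : ℝ) < n := by exact_mod_cast Finset.mem_range.1 hj
  refine ⟨p + 10 * j, ⟨by linarith [j0 j], by linarith⟩, (key _ (by linarith [j0 j]) v).trans ?_⟩
  refine abs_le_of_sq_le_sq' ?_ (by positivity) |>.2
  rw [div_lt_iff₀ (by positivity)] at hn
  rw [le_div_iff₀ n0] at h2
  refine le_of_mul_le_mul_right ?_ n0
  nlinarith [mul_le_mul_of_nonneg_left h2 (sq_nonneg A),
    mul_le_mul_of_nonneg_right hn.le (sq_nonneg ‖v‖)]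

end Crest.Agent.X212.Gls64
end
end

-- ▼ part X212/Gls64/Core
section

/-!
# Row 212, GL-S (helper64): `CoreStmt` from its leaves
-/

set_option autoImplicit false
set_option linter.unusedSectionVars false
noncomputable section
open scoped Manifold ContDiff Topology InnerProductSpace
open MeasureTheory Set Function Filter

namespace Crest.Agent.X212.Gls64
open An Cyf70 Prm93 Sw Sob92
open M (Mf)
open Neck67 (dn cS)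

variable {κ lam ν : Type} [Fintype κ] [Fintype lam] [Fintype ν] [DecidableEq ν]
  {d : Dt κ lam ν} {N : Type} [Fintype N] {ty : N → d.𝓔} {X X₁ X₂ : Mf 4}
  {nc nr n₁ r₁ n₂ r₂ m : ℕ}
  {T T₁ T₂ : Type} [NormedAddCommGroup T] [NormedSpace ℝ T] [FiniteDimensional ℝ T]
  [NormedAddCommGroup T₁] [NormedSpace ℝ T₁] [FiniteDimensional ℝ T₁]
  [NormedAddCommGroup T₂] [NormedSpace ℝ T₂] [FiniteDimensional ℝ T₂]
  {s : Pz X 0 fun i => d.e (ty i)} {s₁ : Pz X₁ 0 fun i => d.e (ty i)}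
  {s₂ : Pz X₂ 0 fun i => d.e (ty i)} {σ : Cel s nc nr T} {σ₁ : Cel s₁ n₁ r₁ T₁}
  {σ₂ : Cel s₂ n₂ r₂ T₂} {k : ℕ} {S : Sp X X₁ X₂ nc n₁ n₂ T T₁ T₂}

theorem mF_mx (g₁ : X₁.M → ℝ) (g₂ : X₂.M → ℝ) (b : ℝ → ℝ) (f : Z σ₁ k r₂ × Z σ₂ k 0) :
    mF σ₁ σ₂ k g₁ g₂ b (mx σ₁ σ₂ k f) =
      mx σ₁ σ₂ k (mZ σ₁ k g₁ b r₂ f.1, mZ σ₂ k g₂ b 0 f.2) := by
  refine Prod.ext rfl (Prod.ext ?_ rfl)
  change mY σ₂ k g₂ b (f.2.1 + ro σ₂ k f.1.2.2) = mY σ₂ k g₂ b f.2.1 + ro σ₂ k (b 0 • f.1.2.2)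
  rw [map_add]
  exact congrArg _ (Prod.ext (map_zero (smulH _ _ _ _)) (Prod.ext (map_zero (smulH _ _ _ _))
    (Prod.ext (smul_zero (b 0)) rfl)))

theorem Sp.len {ι : Type} {l : Filter ι} {δ : ι → ℝ × ℝ} (h : Tendsto δ l S.lg) :
    Tendsto (fun i => S.Λ (δ i)) l atTop := tendsto_comap_iff.1 (h.mono_right inf_le_left)

theorem cr_of (h : σ.OK) : s.Cr σ.β := fun i b hb => (h.gd i b hb).crit

theorem tendsto_pt (h : σ.OK) (hk : 3 ≤ k) {ι : Type} {l : Filter ι} {y : ι → σ.Pnt} {x : σ.Pnt}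
    (hy : Tendsto (fun i => σ.dk (k + 1) (y i) x) l (𝓝 0)) :
    Tendsto (fun i => σ.pt k (y i)) l (𝓝 (σ.pt k x)) :=
  tendsto_iff_norm_sub_tendsto_zero.2 (squeeze_zero (fun _ => norm_nonneg _)
    (fun _ => Pb50.norm_le_dk h.toOK (cr_of h) hk _ _) hy)

/-- the parameter of a point of the chart -/
theorem par_lA {δ : ℝ × ℝ} {c : σ.Pnt} {t : T₁ × T₂} (h : c.1.1 = S.θ δ t) (u : Cx T₁ T₂ σ k) :
    (σ.pt k c + lA σ k (S.θ δ) u).2.2 = S.θ δ (t + u.2.2) := by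
  change c.1.1 + (S.θ δ).contLinear u.2.2 = _
  rw [h, add_comm t, ← vadd_eq_add u.2.2, ContinuousAffineMap.map_vadd, vadd_eq_add, add_comm]

/-- small vectors of the chart have admissible parameters -/
theorem exists_dom (hG : S.Geo σ σ₁ σ₂) (x : σ₁.Pnt) (z : σ₂.Pnt) : ∃ r > 0,
    ∀ v : E0 σ₁ σ₂ k, ‖v‖ ≤ r → x.1.1 + v.1.2.2 ∈ σ₁.Q ∧ z.1.1 + v.2.2.2 ∈ σ₂.Q := by
  have h1 : ∀ᶠ v : E0 σ₁ σ₂ k in 𝓝 0, x.1.1 + v.1.2.2 ∈ σ₁.Q ∧ z.1.1 + v.2.2.2 ∈ σ₂.Q :=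
    ((by fun_prop : Continuous fun v : E0 σ₁ σ₂ k => x.1.1 + v.1.2.2).continuousAt.eventually_mem
      (hG.ok₁.opn.mem_nhds (by simpa using x.2.1))).and
    ((by fun_prop : Continuous fun v : E0 σ₁ σ₂ k => z.1.1 + v.2.2.2).continuousAt.eventually_mem
      (hG.ok₂.opn.mem_nhds (by simpa using z.2.1)))
  obtain ⟨r, hr, h⟩ := Metric.nhds_basis_closedBall.eventually_iff.1 h1
  exact ⟨r, hr, fun v hv => h (mem_closedBall_zero_iff.2 hv)⟩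

/-- **GL-CORE** -/
theorem coreStmt (hL₁ : LocStmt d ty X₁ n₁ r₁ T₁) (hL₂ : LocStmt d ty X₂ n₂ r₂ T₂)
    (hFr : FrStmt d ty X nc nr T T₁ T₂) (hC : C1Stmt d ty X₁ X₂ n₁ r₁ n₂ r₂ T₁ T₂)
    (hE : TreStmt d ty X X₁ X₂ nc nr n₁ r₁ n₂ r₂ T T₁ T₂)
    (hF : TrfStmt d ty X X₁ X₂ nc nr n₁ r₁ n₂ r₂ T T₁ T₂)
    (hD : D0Stmt d ty X X₁ X₂ nc nr n₁ r₁ n₂ r₂ T T₁ T₂)
    (hCf : CfStmt d ty X X₁ X₂ nc nr n₁ r₁ n₂ r₂ T T₁ T₂) :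
    CoreStmt d ty X X₁ X₂ nc nr n₁ r₁ n₂ r₂ T T₁ T₂ := by
  classical
  intro s s₁ s₂ σ σ₁ σ₂ S hG hI x z xx zz cc hP m R f hR k hk q₀ hx hz ix iz ι l δ τ q hS hq
  have k3 : 3 ≤ k := by omega
  obtain ⟨J₀, hJ, -⟩ := id hq
  have hJ' : ∀ i, (q i).support ⊆ J₀ ∪ q₀.support := fun i w hw => by
    by_cases h : w ∈ J₀
    · exact Finset.mem_union_left _ h
    · exact Finset.mem_union_right _ (by rwa [Finsupp.mem_support_iff, ← hJ i w h,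
        ← Finsupp.mem_support_iff])
  obtain ⟨η, η0, hFl, -⟩ := hR.row
  obtain ⟨a₀, ⟨⟨f₁, f₂, hM⟩, l₁, l₂, l₃⟩, a0⟩ :=
    (((hG.mt (J₀ ∪ q₀.support)).and hFl).and (eventually_ge_atTop 0)).exists
  obtain ⟨hB, hc⟩ := hC s₁ s₂ σ₁ σ₂ hG.ok₁ hG.ok₂ k hk R.μ q₀ x z hR.fμ hx hz ix iz
  have : CompleteSpace T := FiniteDimensional.complete ℝ T
  have : CompleteSpace T₁ := FiniteDimensional.complete ℝ T₁
  have : CompleteSpace T₂ := FiniteDimensional.complete ℝ T₂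
  let L := ContinuousLinearEquiv.ofBijective _ (LinearMap.ker_eq_bot.2 hB.1)
    (LinearMap.range_eq_top.2 hB.2)
  have lc : Lc (mE σ₁ σ₂ k S.g₁ S.g₂) (mF σ₁ σ₂ k S.g₁ S.g₂) (L : _ →L[ℝ] _) (a₀ + 3) :=
    fun a ha b c hb hc h v => (mF_mx _ _ _ _).trans (by
      rw [← map_zero (mx σ₁ σ₂ k)]
      exact congrArg _ (Prod.ext (hL₁ s₁ σ₁ hG.ok₁ k hk _ _ a₀ η _ R.μ x q₀ a0 η0 f₁
        Finset.subset_union_right hR.fμ l₁ l₂ a ha b c hb hc h v.1)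
        (hL₂ s₂ σ₂ hG.ok₂ k hk _ _ a₀ η _ 0 z q₀ a0 η0 f₂ Finset.subset_union_right
          (fun j => j.elim0) l₃ (fun _ _ _ _ _ _ => rfl) a ha b c hb hc h v.2)))
  obtain ⟨C₁, e1⟩ := hE s s₁ s₂ σ σ₁ σ₂ S x z xx zz cc hG hP k hk
  obtain ⟨C₂, e2⟩ := hF s s₁ s₂ σ σ₁ σ₂ S x z xx zz cc hG hP k hk m R.Lr
  obtain ⟨r₀, r0, e3⟩ := hD s s₁ s₂ σ σ₁ σ₂ S x z xx zz cc hG hP m R f hR k hk (J₀ ∪ q₀.support)
  obtain ⟨C₃, c3, mE', mF', hW⟩ := isM_two σ₁ σ₂ k f₁.hg f₂.hg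
  obtain ⟨K, K1, K2, K3, K4, K5, K6⟩ : ∃ K, 1 ≤ K ∧ C₁ ≤ K ∧ C₂ ≤ K ∧ C₃ * cS (k + 1) ≤ K ∧
      ‖L.toContinuousLinearMap‖ ≤ K ∧ ‖L.symm.toContinuousLinearMap‖ ≤ K :=
    ((eventually_ge_atTop _).and ((eventually_ge_atTop _).and ((eventually_ge_atTop _).and
      ((eventually_ge_atTop _).and ((eventually_ge_atTop _).and (eventually_ge_atTop _)))))).exists
  have K0 : 0 < K := one_pos.trans_le K1
  have ε0 : 0 < 1 / (8 * K ^ 7) := by positivity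
  obtain ⟨n, hn⟩ := com c3 mE' mF' hW lc ε0
  obtain ⟨s0, hc⟩ := hc ι l q (fun i => (σ₁.pt k (xx (δ i)), σ₂.pt k (zz (δ i))))
    (fun i => R.off (δ i) (τ i) - (0, R.μ x.1.1 x.1.2)) hq
    ((tendsto_pt hG.ok₁ k3 ((hP.cx _).comp hS.lg)).prodMk_nhds
      (tendsto_pt hG.ok₂ k3 ((hP.cz _).comp hS.lg)))
    (by simpa using hS.off.sub_const (0, R.μ x.1.1 x.1.2))
  obtain ⟨ρ₁, ρ1, hc⟩ := hc _ ε0
  obtain ⟨ρ₂, ρ2, hd⟩ := exists_dom (k := k) hG x z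
  choose! P Q hPQ using fun δ (h : ∃ P Q, TrE (k := k) S δ (cc δ) (xx δ) (zz δ) P Q C₁) => h
  choose! P' Q' hPQ' using fun δ (h : ∃ P Q, TrF (σ := σ) (σ₁ := σ₁) (σ₂ := σ₂) (k := k) S δ R.Lr
    P Q C₂) => h
  set r := min ρ₁ (min (r₀ / 2) ρ₂)
  have r1 : r ≤ ρ₁ := min_le_left _ _
  have r2 : r ≤ r₀ / 2 := (min_le_right _ _).trans (min_le_left _ _)
  have r3 : r ≤ ρ₂ := (min_le_right _ _).trans (min_le_right _ _)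
  have hr : 0 < r := lt_min ρ1 (lt_min (half_pos r0) ρ2)
  have key : ∀ᶠ i in l, TrE S (δ i) (cc (δ i)) (xx (δ i)) (zz (δ i)) (P (δ i)) (Q (δ i)) C₁ ∧
      Cht (P (δ i)) (P' (δ i)) (Hf σ k (S.θ (δ i)) (q i) (R.ρ (τ i)) (cc (δ i))) (4 * K ^ 4) r ∧
      ‖P' (δ i) (Hf σ k (S.θ (δ i)) (q i) (R.ρ (τ i)) (cc (δ i)) 0)‖ ≤ K ^ 3 * ‖Sf σ₁ σ₂ k (q i) R.μ
        (σ₁.pt k (xx (δ i)), σ₂.pt k (zz (δ i))) (R.off (δ i) (τ i) - (0, R.μ x.1.1 x.1.2)) 0‖ := by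
    filter_upwards [hS.lg.eventually (e1.and (e2.and (e3.and (hM.and hP.ag)))), hS.A, hc,
      (Sp.len hS.lg).eventually_ge_atTop (max (n + 4) (a₀ + 2))]
      with i ⟨t1, t2, t3, t4, p1, p2, p3, _⟩ hA hc hΛ
    have t1 := hPQ _ t1
    have t2 := hPQ' _ t2
    have Λ1 := (le_max_left _ _).trans hΛ
    have Λ2 := (le_max_right _ _).trans hΛ
    have fr := hFr s σ hG.ok k hk (S.θ (δ i)) (q i) m (R.ρ (τ i)) (cc (δ i)) (hR.fρ _)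
    have nb : ∀ {b}, Neck67.Sm b → Neck67.Bd (k + 1) b (cS (k + 1)) →
        ‖mE σ₁ σ₂ k S.g₁ S.g₂ b‖ ≤ K ∧ ‖mF σ₁ σ₂ k S.g₁ S.g₂ b‖ ≤ K := fun hb hA =>
      ⟨(mE'.norm_le (by linarith) hb hA).trans K4, (mF'.norm_le (by linarith) hb hA).trans K4⟩
    refine ⟨t1, ag (L := L) (B := (fun a => (mE σ₁ σ₂ k S.g₁ S.g₂ (dn a 1),
      mF σ₁ σ₂ k S.g₁ S.g₂ (dn a 1))) '' Icc (2 * S.Λ (δ i) + 3) (2 * S.Λ (δ i) + 3 + n)) K1 hr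
      t1.inv t2.inv (t1.bd.trans K2) (t2.bd.trans K3) (nb (sm_χ _) (bd_χ _ _)).1
      (nb (sm_χ _) (bd_χ _ _)).2 K5 K6 ?_ (fun v => ?_) (fun u hu => (fr.1 u ?_).1)
      (fun v hv => hc v (hv.trans r1)) (fr.2 hI hR.dim) (by field_simp; rfl)⟩
    · rintro _ ⟨a, ha, rfl⟩
      have s0 := Neck67.sm_dn le_rfl a
      have e : χ (S.Λ (δ i)) * dn a 1 = χ (S.Λ (δ i)) := funext fun t => by
        rcases le_total (2 * S.Λ (δ i) + 1 / 2) t with h | h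
        · simp [χ_zero h]
        · simp [Neck67.dn_one one_pos (show t ≤ a - 1 by linarith [ha.1])]
      exact ⟨fun v => (mE'.mul (sm_χ _) s0 v).trans (by rw [e]),
        fun v => (mF'.mul (sm_χ _) s0 v).trans (by rw [e]),
        (nb s0 (Neck67.bd_dn _ le_rfl _).of_succ).2, fun u hu => t3 _ _ _ _ _ _ t1 t2 _ hA _ (hJ' i)
          _ s0 (fun t ht => Neck67.dn_zero one_pos (by linarith [ha.2])) u (by linarith)⟩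
    · obtain ⟨a, ha, h⟩ := hn (2 * S.Λ (δ i) + 3) (by linarith) (by linarith) v
      exact ⟨_, ⟨a, ha, rfl⟩, h⟩
    · obtain ⟨d1, d2⟩ := hd _ (hu.trans r3)
      change (σ.pt k (cc (δ i)) + lA σ k (S.θ (δ i)) u).2.2 ∈ σ.Q
      rw [par_lA p3, p1, p2, ← t1.par u]
      exact (t4 _ d1 _ d2).1
  refine hCf s s₁ s₂ σ σ₁ σ₂ S x z xx zz cc hG hP hI hx.1.1.2 m R f hR k hk ι l δ τ q hS
    (fun i => P (δ i)) (fun i => Q (δ i)) (fun i => P' (δ i)) C₁ (4 * K ^ 4) r (by positivity) hr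
    (key.mono fun i h => ⟨h.1, h.2.1⟩) (squeeze_zero_norm' (key.mono fun i h => h.2.2) ?_)
  simpa using s0.norm.const_mul (K ^ 3)

end Crest.Agent.X212.Gls64
end
end

-- ▼ part X212/Gls64/Cf
section

/-!
# Row 212, GL-CF (helper64): from the chart to the conclusions
-/

set_option autoImplicit false
set_option linter.unusedSectionVars false
noncomputable section
open scoped Manifold ContDiff Topology InnerProductSpace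
open MeasureTheory Set Function Filter

namespace Crest.Agent.X212.Gls64
open An Cyf70 Prm93 Sw Sob92
open M (Mf)
open Mod61 (Hs)
open Neck67 (dn cS)

theorem Cht.mono {C Y E F : Type} [NormedAddCommGroup C] [NormedSpace ℝ C] [NormedAddCommGroup Y]
    [NormedSpace ℝ Y] [NormedAddCommGroup E] [NormedSpace ℝ E] [NormedAddCommGroup F]
    [NormedSpace ℝ F] {P : C →L[ℝ] E} {P' : Y →L[ℝ] F} {H : C → Y} {K r r' : ℝ}
    (h : Cht P P' H K r) (h0 : 0 ≤ r) (hr : r' ≤ r) : Cht P P' H K r' :=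
  ⟨h.inv, fun f hf => by
    obtain ⟨u, h1, rfl⟩ := h.ex f (hf.trans hr)
    have := h.low 0 u (by simpa using h0) h1
    rw [zero_sub, map_neg, norm_neg] at this
    exact ⟨u, this.trans hf, rfl⟩, fun u u' a b => h.low u u' (a.trans hr) (b.trans hr),
    fun u a => h.lip u (a.trans hr), fun u a => h.sur u (a.trans hr)⟩

variable {κ lam ν : Type} [Fintype κ] [Fintype lam] [Fintype ν] [DecidableEq ν]
  {d : Dt κ lam ν} {N : Type} [Fintype N] {ty : N → d.𝓔} {X X₁ X₂ : Mf 4}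
  {nc nr n₁ r₁ n₂ r₂ m : ℕ}
  {T T₁ T₂ : Type} [NormedAddCommGroup T] [NormedSpace ℝ T] [FiniteDimensional ℝ T]
  [NormedAddCommGroup T₁] [NormedSpace ℝ T₁] [FiniteDimensional ℝ T₁]
  [NormedAddCommGroup T₂] [NormedSpace ℝ T₂] [FiniteDimensional ℝ T₂]
  {s : Pz X 0 fun i => d.e (ty i)} {s₁ : Pz X₁ 0 fun i => d.e (ty i)}
  {s₂ : Pz X₂ 0 fun i => d.e (ty i)} {σ : Cel s nc nr T} {σ₁ : Cel s₁ n₁ r₁ T₁}
  {σ₂ : Cel s₂ n₂ r₂ T₂} {k : ℕ} {S : Sp X X₁ X₂ nc n₁ n₂ T T₁ T₂}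

section one
variable (h : σ.OK) (hk : 7 ≤ k)
include h hk

theorem row' : Row σ k (gm σ k) := row_gm (Gr93.row d ty X nc nr T) h hk

theorem val_gr (c : σ.Pnt) {v : σ.C k} (hv : v ∈ σ.U k) :
    s.bg.F.val k _ (gr σ k (σ.pt k c) v) = σ.gro v.2.2 c.1.2
      (s.bg.F.val _ _ (v - σ.pt k c).1) (s.bg.F.val _ _ (v - σ.pt k c).2.1) := by
  rw [gr, (row' h hk).2 ((σ.pt k c).1, (σ.pt k c).2.1, v.2.2) hv]
  simp only [Pb50.val_Φ h.toOK (cr_of h) (by omega : 3 ≤ k), add_sub_cancel]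
  rfl

theorem val_gR (c y : σ.Pnt) : s.bg.F.val k _ (gr σ k (σ.pt k c) (σ.pt k y)) = gR σ c y := by
  have k3 : 3 ≤ k := by omega
  rw [val_gr h hk c y.2.1, Prod.fst_sub, Prod.snd_sub, Prod.fst_sub, val_sub, val_sub,
    Pb50.val_Φ h.toOK (cr_of h) k3, Pb50.val_Φ h.toOK (cr_of h) k3,
    Pb50.val_a h.toOK (cr_of h) k3, Pb50.val_a h.toOK (cr_of h) k3, sub_sub_sub_cancel_right]
  exact congrArg (fun α => σ.gro y.1.1 c.1.2 α _) (funext fun x => sub_sub_sub_cancel_right _ _ _)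

omit hk in
theorem gR_hs (c y : σ.Pnt) : gR σ c y ∈ Hs s.bg.F.toPre (triv X.M ℝ) := fun j hj =>
  ⟨_, (val_incl (Sup.of_tame h.site.bg.tame.choose_spec) hj (Nat.le_add_right j 7) _).trans
    (val_gR h (Nat.le_add_left 7 j) c y)⟩

omit h in
theorem rr_pt {g : T → Cfg X.M κ ν → ℝ} (hg : σ.Fn g) (y : σ.Pnt) :
    σ.rr k g (σ.pt k y) = g y.1.1 y.1.2 :=
  let ⟨_, a⟩ := hg.1 k hk; (Sw21.repR_rr a).2 y

omit h in
theorem rv_pt {ρ : T → Cfg X.M κ ν → Fin m → ℝ} (hρ : ∀ j, σ.Fn fun t c => ρ t c j) (y : σ.Pnt) :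
    rv σ k ρ (σ.pt k y) = ρ y.1.1 y.1.2 := funext fun j => rr_pt hk (hρ j) y

omit h hk in
theorem eqv_iff (Γ : σ.GD k) (n : ℤ) (he : Equivalence σ.Eqv) {x y : (σ.prob Γ n).X} :
    (σ.prob Γ n).eqv x y ↔ σ.Eqv x.2 y.2 :=
  Equivalence.eqvGen_iff (r := fun x y : (σ.prob Γ n).X => σ.Eqv x.2 y.2)
    ⟨fun _ => he.refl _, he.symm, he.trans⟩

omit h in
theorem invF (Γ : σ.GD k) (n : ℤ) (he : Equivalence σ.Eqv) {f : T → Cfg X.M κ ν → ℝ}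
    (hf : σ.Fn f) : InvF (σ.prob Γ n) fun _ => σ.rr k f := by
  obtain ⟨_, a⟩ := hf.1 k hk
  have a := Sw21.repR_rr a
  have b : ∀ y y', σ.Eqv y y' → σ.rr k f (σ.pt k y') = σ.rr k f (σ.pt k y) := fun y y' e =>
    (a.2 y').trans ((hf.2 y y' e.1 e.2).trans (a.2 y).symm)
  exact ⟨fun _ => a.1.of_le (by simp), fun _ => Γ.inv _ a.1.continuousOn b,
    fun x y _ e => (b _ _ ((eqv_iff Γ n he).1 e)).symm⟩

end one

theorem pt_co {δ : ℝ × ℝ} {c y : σ.Pnt} {t t' : T₁ × T₂} (hc : c.1.1 = S.θ δ t)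
    (hy : y.1.1 = S.θ δ t') : σ.pt k c + lA σ k (S.θ δ) (co σ k c y (t' - t)) = σ.pt k y :=
  Prod.ext (add_sub_cancel _ _) (Prod.ext (add_sub_cancel _ _) ((par_lA hc _).trans (by
    change S.θ δ (t + (t' - t)) = y.1.1
    rw [add_sub_cancel, hy])))

theorem co_of {θ : T₁ × T₂ →ᴬ[ℝ] T} {c y : σ.Pnt} {u : Cx T₁ T₂ σ k}
    (h : σ.pt k y = σ.pt k c + lA σ k θ u) : co σ k c y u.2.2 = u := by
  rw [co, h, add_sub_cancel_left]; rfl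

variable (S) in
/-- the facts about one chart -/
structure Gd (δ : ℝ × ℝ) (q : d.W →₀ ℝ) (ρ : T → Cfg X.M κ ν → Fin m → ℝ)
    (f : T → Cfg X.M κ ν → ℝ) (τ : ℝ) (c : σ.Pnt) (x : σ₁.Pnt) (z : σ₂.Pnt)
    (P : Cx T₁ T₂ σ k →L[ℝ] E0 σ₁ σ₂ k) (P' : Z σ k m →L[ℝ] F0 σ₁ σ₂ k) (K r : ℝ) : Prop where
  ch : Cht P P' (Hf σ k (S.θ δ) q ρ c) K r
  ct : c.1.1 = S.θ δ (x.1.1, z.1.1)
  dom : ∀ u, ‖P u‖ ≤ r → x.1.1 + u.2.2.1 ∈ σ₁.Q ∧ z.1.1 + u.2.2.2 ∈ σ₂.Q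
  mem : ∀ t₁ ∈ σ₁.Q, ∀ t₂ ∈ σ₂.Q, S.θ δ (t₁, t₂) ∈ σ.Q
  irr : ∀ (y : σ.Pnt) u, ‖P u‖ ≤ r → σ.pt k y = σ.pt k c + lA σ k (S.θ δ) u → ∃ p, y.1.2.Φ p ≠ 0
  lev : ∀ y : σ.Pnt, ∀ t₁ ∈ σ₁.Q, ∀ t₂ ∈ σ₂.Q, y.1.1 = S.θ δ (t₁, t₂) →
    (ρ y.1.1 y.1.2 = 0 ↔ f y.1.1 y.1.2 = τ)
  trv : ∀ y : σ.Pnt, ∀ t₁ ∈ σ₁.Q, ∀ t₂ ∈ σ₂.Q, y.1.1 = S.θ δ (t₁, t₂) →
    S.Onto σ k q δ ρ y → Trv σ k q f y

namespace Gd
variable {δ : ℝ × ℝ} {q : d.W →₀ ℝ} {ρ : T → Cfg X.M κ ν → Fin m → ℝ} {f : T → Cfg X.M κ ν → ℝ}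
  {τ : ℝ} {c : σ.Pnt} {x : σ₁.Pnt} {z : σ₂.Pnt} {P : Cx T₁ T₂ σ k →L[ℝ] E0 σ₁ σ₂ k}
  {P' : Z σ k m →L[ℝ] F0 σ₁ σ₂ k} {K r : ℝ} (g : Gd S δ q ρ f τ c x z P P' K r)
  {u u' : Cx T₁ T₂ σ k} {y y' : σ.Pnt}
include g

theorem par (e : σ.pt k y = σ.pt k c + lA σ k (S.θ δ) u) :
    y.1.1 = S.θ δ (x.1.1 + u.2.2.1, z.1.1 + u.2.2.2) :=
  (congrArg (·.2.2) e).trans (par_lA g.ct u)

theorem mem_U (hu : ‖P u‖ ≤ r) : σ.pt k c + lA σ k (S.θ δ) u ∈ σ.U k := by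
  change (σ.pt k c + lA σ k (S.θ δ) u).2.2 ∈ σ.Q
  rw [par_lA g.ct]
  exact g.mem _ (g.dom u hu).1 _ (g.dom u hu).2

variable (h : σ.OK) (hk : 7 ≤ k) (hρ : ∀ j, σ.Fn fun t c => ρ t c j)
include h hk hρ

theorem onto (hFr : FrStmt d ty X nc nr T T₁ T₂) (hu : ‖P u‖ ≤ r)
    (e : σ.pt k y = σ.pt k c + lA σ k (S.θ δ) u) : S.Onto σ k q δ ρ y := fun a b => by
  obtain ⟨w, hw⟩ := g.ch.sur u hu (a, 0, b)
  obtain ⟨h1, h2⟩ := ((hFr s σ h k hk (S.θ δ) q m ρ c hρ).1 u (g.mem_U hu)).2 w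
  rw [hw, ← e] at h1 h2
  exact ⟨_, ⟨w.2.2, rfl⟩, h1.symm, fun j => (h2 j).symm⟩

variable (hR : RepStmt d ty X nc nr T)
include hR

theorem boot (hB : BootStmt d ty X nc nr T) (hu : ‖P u‖ ≤ r)
    (h1 : (Hf σ k (S.θ δ) q ρ c u).1 = 0)
    (h2 : s.bg.F.val k _ (Hf σ k (S.θ δ) q ρ c u).2.1 ∈ Hs s.bg.F.toPre (triv X.M ℝ)) :
    ∃ y, σ.pt k y = σ.pt k c + lA σ k (S.θ δ) u ∧ σ.Sol q y := by
  obtain ⟨y, e⟩ := hB s σ h k hk q c _ (g.mem_U hu) h1 (val_gr h hk c (g.mem_U hu) ▸ h2)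
  exact ⟨y, e, ((hR s σ h k hk).2.2.1 q y).2 ⟨g.irr y u hu e, e ▸ h1⟩⟩

omit g in
theorem hf_eq (e : σ.pt k y = σ.pt k c + lA σ k (S.θ δ) u) (hy : σ.Sol q y) :
    Hf σ k (S.θ δ) q ρ c u = (0, gr σ k (σ.pt k c) (σ.pt k y), ρ y.1.1 y.1.2) := by
  rw [Hf, ← e, Φ, (((hR s σ h k hk).2.2.1 q y).1 hy).2, rv_pt hk hρ]

theorem uniq (hB : BootStmt d ty X nc nr T) (hA : AxStmt d ty X nc nr T)
    (hFr : FrStmt d ty X nc nr T T₁ T₂) (hI : σ.Ind 1) (hf : σ.Fn f) (hK : 0 < K)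
    (hu : ‖P u‖ ≤ r) (hu' : ‖P u'‖ ≤ r) (a : K * (K * ‖P u‖) ≤ r) (a' : K * (K * ‖P u'‖) ≤ r)
    (e : σ.pt k y = σ.pt k c + lA σ k (S.θ δ) u) (e' : σ.pt k y' = σ.pt k c + lA σ k (S.θ δ) u')
    (hy : σ.Sol q y) (hy' : σ.Sol q y') (l : ρ y.1.1 y.1.2 = 0) (l' : ρ y'.1.1 y'.1.2 = 0) :
    σ.Eqv y y' := by
  obtain ⟨Γ, hΓ, he⟩ := hA s σ h 1 hI k hk
  set H := Hf σ k (S.θ δ) q ρ c with hH
  let p := AffineMap.lineMap (k := ℝ) (H u) (H u')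
  have b := hf_eq h hk hρ hR e hy
  have b' := hf_eq h hk hρ hR e' hy'
  have key : ∀ t : Icc (0 : ℝ) 1, ∃ v, ‖P v‖ ≤ r ∧ H v = p t.1 ∧ ∃ y, σ.pt k y =
      σ.pt k c + lA σ k (S.θ δ) v ∧ σ.Sol q y ∧ f y.1.1 y.1.2 = τ := fun t => by
    have m : ∀ v, ‖P v‖ ≤ r → K * (K * ‖P v‖) ≤ r →
        H v ∈ P' ⁻¹' Metric.closedBall (P' (H 0)) (r / K) := fun v hv hs => by
      rw [mem_preimage, mem_closedBall_iff_norm, ← map_sub, le_div_iff₀' hK]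
      exact (mul_le_mul_of_nonneg_left (g.ch.lip v hv) hK.le).trans hs
    have h1 := ((convex_closedBall (P' (H 0)) (r / K)).linear_preimage
      P'.toLinearMap).lineMap_mem (m u hu a) (m u' hu' a') t.2
    change P' (p t.1) ∈ Metric.closedBall _ _ at h1
    rw [mem_closedBall_iff_norm', ← map_sub, le_div_iff₀' hK] at h1
    obtain ⟨v, hv, ev⟩ := g.ch.ex _ h1
    have pe : p t.1 = (0, (1 - t.1) • (H u).2.1 + t.1 • (H u').2.1, 0) := by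
      simp only [p, AffineMap.lineMap_apply_module, hH, b, b', l, l']
      simp
    obtain ⟨y, e1, e2⟩ := g.boot h hk hρ hR hB hv (by rw [ev, pe]) (by
      rw [ev, pe, val_add, val_smul, val_smul, hH, b, b', val_gR h hk, val_gR h hk]
      exact Submodule.add_mem _ (Submodule.smul_mem _ _ (gR_hs h _ _))
        (Submodule.smul_mem _ _ (gR_hs h _ _)))
    refine ⟨v, hv, ev, y, e1, e2, (g.lev y _ (g.dom v hv).1 _ (g.dom v hv).2 (g.par e1)).1 ?_⟩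
    have := (hf_eq h hk hρ hR e1 e2).symm.trans (ev.trans pe)
    exact congrArg (·.2.2) this
  choose v hv ev ys e1 e2 e3 using key
  obtain ⟨B, hB'⟩ := g.ch.inv
  have cv : Continuous v := continuous_iff_continuousAt.2 fun t₀ => by
    rw [ContinuousAt, tendsto_iff_norm_sub_tendsto_zero]
    have : Continuous fun t : Icc (0 : ℝ) 1 => |B| * (K * ‖P' (p t.1 - p t₀.1)‖) :=
      continuous_const.mul (continuous_const.mul (P'.continuous.comp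
        ((AffineMap.lineMap_continuous.comp continuous_subtype_val).sub continuous_const)).norm)
    refine squeeze_zero (fun _ => norm_nonneg _) (fun t => ?_) (this.tendsto' t₀ 0 (by simp))
    rw [← ev, ← ev]
    exact (hB' _).trans (mul_le_mul (le_abs_self B) (g.ch.low _ _ (hv t) (hv t₀)) (norm_nonneg _)
      (abs_nonneg B))
  have cΘ : Continuous fun t => σ.pt k (ys t) := by simp only [e1]; fun_prop
  have sol : ∀ t, (σ.prob Γ 1).Sol q ⟨(), ys t⟩ := fun t => ((hR s σ h k hk).2.2.1 q _).1 (e2 t)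
  have lc : IsLocallyConstant fun t => Quotient.mk ⟨_, he⟩ (ys t) :=
    (IsLocallyConstant.iff_eventually_eq _).2 fun t₀ => by
      filter_upwards [(cΘ.tendsto t₀).eventually (Gl67.isol hΓ (invF hk Γ 1 he hf) rfl trivial
        (sol t₀) (g.trv _ _ (g.dom _ (hv t₀)).1 _ (g.dom _ (hv t₀)).2 (g.par (e1 t₀))
          (g.onto h hk hρ hFr (hv t₀) (e1 t₀))))] with t ht
      exact Quotient.sound ((eqv_iff Γ 1 he).1 (ht _ rfl (sol t)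
        ((rr_pt hk hf _).trans ((e3 t).trans ((e3 t₀).symm.trans (rr_pt hk hf _).symm)))))
  have en : ∀ (t : Icc (0 : ℝ) 1) {w} {y : σ.Pnt}, ‖P w‖ ≤ r → p t.1 = H w →
      σ.pt k y = σ.pt k c + lA σ k (S.θ δ) w → ys t = y := fun t w y b e3 e4 => by
    have a1 := g.ch.low _ _ (hv t) b
    rw [← hH, ev, e3, sub_self, map_zero, norm_zero, mul_zero] at a1
    have a2 := hB' (v t - w)
    rw [le_antisymm a1 (norm_nonneg _), mul_zero, norm_le_zero_iff, sub_eq_zero] at a2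
    exact Pb50.pt_inj h.toOK (cr_of h) (by omega : 3 ≤ k) (by rw [e1, e4, a2])
  rw [← en ⟨0, by simp⟩ hu (by simp [p]) e, ← en ⟨1, by simp⟩ hu' (by simp [p]) e']
  exact Quotient.exact (lc.apply_eq_of_preconnectedSpace _ _)

end Gd

theorem TrE.lift {δ : ℝ × ℝ} {c y : σ.Pnt} {x : σ₁.Pnt} {z : σ₂.Pnt}
    {P : Cx T₁ T₂ σ k →L[ℝ] E0 σ₁ σ₂ k} {Q : E0 σ₁ σ₂ k →L[ℝ] Cx T₁ T₂ σ k} {C : ℝ}
    (h : TrE S δ c x z P Q C) (ct : c.1.1 = S.θ δ (x.1.1, z.1.1)) {u : Cx T₁ T₂ σ k}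
    (h1 : x.1.1 + u.2.2.1 ∈ σ₁.Q) (h2 : z.1.1 + u.2.2.2 ∈ σ₂.Q)
    (e : σ.pt k y = σ.pt k c + lA σ k (S.θ δ) u) : ∃ y₁ y₂,
    (σ₁.pt k y₁, σ₂.pt k y₂) = (σ₁.pt k x, σ₂.pt k z) + P u ∧
      S.Agr δ (3 * S.Λ δ + 1) y y₁ y₂ := by
  have := h.sm y _ h1 _ h2 ((congrArg (·.2.2) e).trans (par_lA ct u))
  rwa [add_sub_cancel_left, add_sub_cancel_left, co_of e] at this

variable {x : σ₁.Pnt} {z : σ₂.Pnt} {xx : ℝ × ℝ → σ₁.Pnt} {zz : ℝ × ℝ → σ₂.Pnt}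
  {cc : ℝ × ℝ → σ.Pnt} {ι : Type} {l : Filter ι} {δ : ι → ℝ × ℝ}
  {P : ι → Cx T₁ T₂ σ k →L[ℝ] E0 σ₁ σ₂ k} {Q : ι → E0 σ₁ σ₂ k →L[ℝ] Cx T₁ T₂ σ k} {C : ℝ}

theorem tendsto_base (hG : S.Geo σ σ₁ σ₂) (hP : S.Pre x z xx zz cc) (hk : 3 ≤ k)
    (hδ : Tendsto δ l S.lg) : Tendsto (fun i => ((σ₁.pt k (xx (δ i)), σ₂.pt k (zz (δ i))) :
      E0 σ₁ σ₂ k)) l (𝓝 (σ₁.pt k x, σ₂.pt k z)) :=
  (tendsto_pt hG.ok₁ hk ((hP.cx _).comp hδ)).prodMk_nhds (tendsto_pt hG.ok₂ hk ((hP.cz _).comp hδ))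

/-- convergent sequences are small in the chart -/
theorem small (hCp : CpStmt d ty X X₁ X₂ nc nr n₁ r₁ n₂ r₂ T T₁ T₂) (hG : S.Geo σ σ₁ σ₂)
    (hP : S.Pre x z xx zz cc) (hk : 7 ≤ k) (hδ : Tendsto δ l S.lg)
    (hT : ∀ᶠ i in l, TrE S (δ i) (cc (δ i)) (xx (δ i)) (zz (δ i)) (P i) (Q i) C)
    {y : ι → σ.Pnt} {t₁ : ι → T₁} {t₂ : ι → T₂} (hy : S.Nr (k + 1) l δ y t₁ t₂ x z) :
    ∃ u : ι → Cx T₁ T₂ σ k, Tendsto (fun i => ‖P i (u i)‖) l (𝓝 0) ∧ ∀ᶠ i in l,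
      σ.pt k (y i) = σ.pt k (cc (δ i)) + lA σ k (S.θ (δ i)) (u i) ∧
      (u i).2.2 = (t₁ i - x.1.1, t₂ i - z.1.1) := by
  have k3 : 3 ≤ k := by omega
  obtain ⟨y₁, y₂, a1, a2, a3⟩ := hCp s s₁ s₂ σ σ₁ σ₂ S hG x z xx zz cc hP (k + 1) (by omega) ι l δ
    y t₁ t₂ hδ hy
  obtain ⟨g₁, g₂⟩ := hG.hg
  obtain ⟨C₃, c3, mE', -⟩ := isM_two σ₁ σ₂ k g₁ g₂
  have b0 := (((tendsto_pt hG.ok₁ k3 a1).prodMk_nhds (tendsto_pt hG.ok₂ k3 a2)).sub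
    (tendsto_base hG hP k3 hδ)).norm.const_mul (|C| * (C₃ * cS (k + 1)))
  rw [sub_self, norm_zero, mul_zero] at b0
  refine ⟨fun i => co σ k (cc (δ i)) (y i) (t₁ i - x.1.1, t₂ i - z.1.1),
    squeeze_zero' (.of_forall fun _ => norm_nonneg _) ?_ b0, ?_⟩
  · filter_upwards [hT, a3, hδ.eventually hP.ag, hy.t, (Sp.len hδ).eventually_ge_atTop 0]
      with i t ⟨p1, p2, _, p3, p4⟩ ⟨q1, q2, _⟩ ht hΛ
    obtain ⟨w₁, w₂, e, _, e1, e2⟩ := t.sm (y i) _ (p1 ▸ (y₁ i).2.1) _ (p2 ▸ (y₂ i).2.1) ht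
    rw [q1, q2] at e
    set u := co σ k (cc (δ i)) (y i) (t₁ i - x.1.1, t₂ i - z.1.1)
    have pp := t.par u
    have lt : ∀ a, χ (S.Λ (δ i)) a ≠ 0 → a < 2 * S.Λ (δ i) + 1 / 2 := fun a ha =>
      lt_of_not_ge fun h => ha (χ_zero h)
    have k1 : mC σ₁ k S.g₁ (χ (S.Λ (δ i))) (σ₁.pt k w₁ - σ₁.pt k (y₁ i)) = 0 :=
      kill hG.ok₁.toOK g₁ (sm_χ _) (cr_of hG.ok₁) k3 (by
        have := congrArg (·.1.2.2) e
        change w₁.1.1 = (xx (δ i)).1.1 + (P i u).1.2.2 at this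
        rw [this, p1, q1, show (P i u).1.2.2 = t₁ i - x.1.1 from congrArg Prod.fst pp,
          add_sub_cancel]) fun p hp =>
        have a := e1 p ((lt _ hp).trans_le (by linarith))
        have b := p3 p ((lt _ hp).trans_le (by linarith))
        ⟨fun j => (a.1 j).symm.trans (b.1 j), a.2.symm.trans b.2⟩
    have k2 : mC σ₂ k S.g₂ (χ (S.Λ (δ i))) (σ₂.pt k w₂ - σ₂.pt k (y₂ i)) = 0 :=
      kill hG.ok₂.toOK g₂ (sm_χ _) (cr_of hG.ok₂) k3 (by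
        have := congrArg (·.2.2.2) e
        change w₂.1.1 = (zz (δ i)).1.1 + (P i u).2.2.2 at this
        rw [this, p2, q2, show (P i u).2.2.2 = t₂ i - z.1.1 from congrArg Prod.snd pp,
          add_sub_cancel]) fun p hp =>
        have a := e2 p ((lt _ hp).trans_le (by linarith))
        have b := p4 p ((lt _ hp).trans_le (by linarith))
        ⟨fun j => (a.1 j).symm.trans (b.1 j), a.2.symm.trans b.2⟩
    have k3 : mE σ₁ σ₂ k S.g₁ S.g₂ (χ (S.Λ (δ i))) (P i u) = mE σ₁ σ₂ k S.g₁ S.g₂ (χ (S.Λ (δ i)))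
        ((σ₁.pt k (y₁ i), σ₂.pt k (y₂ i)) - (σ₁.pt k (xx (δ i)), σ₂.pt k (zz (δ i)))) := by
      rw [← sub_eq_zero, ← map_sub, eq_sub_of_add_eq' e.symm, sub_sub_sub_cancel_right]
      exact Prod.ext k1 k2
    have a4 := (P i ∘L Q i).le_of_opNorm_le (t.bd.trans (le_abs_self C))
      (mE σ₁ σ₂ k S.g₁ S.g₂ (χ (S.Λ (δ i))) (P i u))
    rw [ContinuousLinearMap.comp_apply, t.inv, k3] at a4
    rw [mul_assoc]
    exact a4.trans (mul_le_mul_of_nonneg_left (mE'.bd (sm_χ _) (bd_χ _ _) _) (abs_nonneg C))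
  · filter_upwards [hδ.eventually hP.ag, hy.t] with i ⟨q1, q2, q3, _⟩ ht
    rw [q1, q2] at q3
    exact ⟨(pt_co q3 ht).symm, rfl⟩

/-- the charts are good -/
theorem exists_gd (hG : S.Geo σ σ₁ σ₂) (hP : S.Pre x z xx zz cc) (hk : 7 ≤ k)
    (hx : ∃ p, x.1.2.Φ p ≠ 0) {R : Rw κ ν X X₁ nr r₁ r₂ m T T₁} {f : T → Cfg X.M κ ν → ℝ}
    (hR : R.OK S σ x z f) {τ : ι → ℝ} {q : ι → d.W →₀ ℝ} (hS : R.Sq S l δ τ)
    {P' : ι → Z σ k m →L[ℝ] F0 σ₁ σ₂ k} {K r : ℝ} (hr : 0 < r)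
    (hT : ∀ᶠ i in l, TrE S (δ i) (cc (δ i)) (xx (δ i)) (zz (δ i)) (P i) (Q i) C ∧
      Cht (P i) (P' i) (Hf σ k (S.θ (δ i)) (q i) (R.ρ (τ i)) (cc (δ i))) K r) :
    ∃ r' > 0, ∀ᶠ i in l, Gd S (δ i) (q i) (R.ρ (τ i)) f (τ i) (cc (δ i)) (xx (δ i)) (zz (δ i))
      (P i) (P' i) K r' := by
  have k3 : 3 ≤ k := by omega
  obtain ⟨p, hp⟩ := hx
  obtain ⟨ρ₂, ρ2, hd⟩ := exists_dom (k := k) hG x z
  have hS' := Sup.of_tame hG.ok₁.site.bg.tame.choose_spec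
  have h1 : ∀ᶠ v : E0 σ₁ σ₂ k × E0 σ₁ σ₂ k in 𝓝 ((σ₁.pt k x, σ₂.pt k z), 0),
      s₁.bg.F.val _ _ (v.1 + v.2).1.2.1 p + (s₁.base σ₁.β).Φ p ≠ 0 :=
    ContinuousAt.eventually_ne (by fun_prop) (by
      simpa [Pb50.val_Φ hG.ok₁.toOK (cr_of hG.ok₁) k3] using hp)
  rw [nhds_prod_eq, eventually_prod_iff] at h1
  obtain ⟨pa, h2, pb, h3, h4⟩ := h1
  obtain ⟨ρ₃, ρ3, h3⟩ := Metric.nhds_basis_closedBall.eventually_iff.1 h3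
  obtain ⟨a, -, -, hM⟩ := (hG.mt ∅).exists
  refine ⟨min r (min ρ₂ ρ₃), lt_min hr (lt_min ρ2 ρ3), ?_⟩
  filter_upwards [hT, hS.lg.eventually (hP.ag.and (hM.and (hR.lev.and (hR.trv k hk)))), hS.A,
    (tendsto_base hG hP k3 hS.lg).eventually h2, (Sp.len hS.lg).eventually_ge_atTop |S.g₁ p|]
    with i ⟨t, c⟩ ⟨⟨q1, q2, q3, _⟩, e1, e2, e3⟩ hA e4 hΛ
  have dom : ∀ u, ‖P i u‖ ≤ min r (min ρ₂ ρ₃) →
      (xx (δ i)).1.1 + u.2.2.1 ∈ σ₁.Q ∧ (zz (δ i)).1.1 + u.2.2.2 ∈ σ₂.Q := fun u hu => by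
    rw [q1, q2, ← t.par u]
    exact hd _ (hu.trans ((min_le_right _ _).trans (min_le_left _ _)))
  refine ⟨c.mono hr.le (min_le_left _ _), q3, dom, fun t₁ h₁ t₂ h₂ => (e1 t₁ h₁ t₂ h₂).1,
    fun y u hu e => ?_, e2 _ hA, e3 _ hA _⟩
  obtain ⟨w₁, w₂, b1, -, b2, -⟩ := t.lift q3 (dom u hu).1 (dom u hu).2 e
  have b3 := h4 e4 (h3 (mem_closedBall_zero_iff.2
    (hu.trans ((min_le_right _ _).trans (min_le_right _ _)))))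
  simp only [← b1, Pb50.val_Φ hG.ok₁.toOK (cr_of hG.ok₁) k3, Pi.sub_apply, sub_add_cancel] at b3
  have b4 : S.g₁ p < 3 * S.Λ (δ i) + 1 := by
    linarith [abs_nonneg (S.g₁ p), le_abs_self (S.g₁ p)]
  exact ⟨_, fun h => b3 ((b2 p b4).2.symm.trans h)⟩

/-- **GL-CF** -/
theorem cfStmt (hB : BootStmt d ty X nc nr T) (hRp : RepStmt d ty X nc nr T)
    (hA : AxStmt d ty X nc nr T) (hFr : FrStmt d ty X nc nr T T₁ T₂)
    (hCp : CpStmt d ty X X₁ X₂ nc nr n₁ r₁ n₂ r₂ T T₁ T₂)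
    (hNr : NrStmt d ty X X₁ X₂ nc nr n₁ r₁ n₂ r₂ T T₁ T₂) :
    CfStmt d ty X X₁ X₂ nc nr n₁ r₁ n₂ r₂ T T₁ T₂ := by
  intro s s₁ s₂ σ σ₁ σ₂ S x z xx zz cc hG hP hI hx m R f hR k hk ι l δ τ q hS P Q P' C K r hK hr
    hT h0
  have k3 : 3 ≤ k := by omega
  have h := hG.ok
  obtain ⟨r', r0, hg⟩ := exists_gd hG hP hk hx hR hS hr hT
  have hT' := hT.mono fun _ h => h.1
  have zero : ∀ {i} {y : σ.Pnt} {u}, σ.pt k y = σ.pt k (cc (δ i)) + lA σ k (S.θ (δ i)) u →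
      σ.Sol (q i) y → R.ρ (τ i) y.1.1 y.1.2 = 0 → gR σ (cc (δ i)) y = 0 →
      Hf σ k (S.θ (δ i)) (q i) (R.ρ (τ i)) (cc (δ i)) u = 0 := fun e a b c => by
    rw [Gd.hf_eq h hk (hR.fρ _) hRp e a, b, val_injective
      (Sup.of_tame h.site.bg.tame.choose_spec) (by omega) ((val_gR h hk _ _).trans
        (c.trans val_zero.symm))]
    rfl
  refine ⟨fun _ => ?_, fun y t₁ t₂ y' t₁' t₂' hy hy' => ?_, fun y t₁ t₂ hy => ?_,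
    fun y t₁ t₂ y' t₁' t₂' hy hy' => ?_⟩
  · have h1 := h0.norm.const_mul K
    rw [norm_zero, mul_zero] at h1
    have : Nonempty σ.Pnt := ⟨cc 0⟩
    have : Nonempty σ₁.Pnt := ⟨x⟩
    have : Nonempty σ₂.Pnt := ⟨z⟩
    have h2 : ∀ᶠ i in l, ∃ (y : σ.Pnt) (y₁ : σ₁.Pnt) (y₂ : σ₂.Pnt),
        ‖((σ₁.pt k y₁, σ₂.pt k y₂) - (σ₁.pt k (xx (δ i)), σ₂.pt k (zz (δ i))) : E0 σ₁ σ₂ k)‖ ≤
          K * ‖P' i (Hf σ k (S.θ (δ i)) (q i) (R.ρ (τ i)) (cc (δ i)) 0)‖ ∧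
        S.Agr (δ i) (3 * S.Λ (δ i) + 1) y y₁ y₂ ∧ σ.Sol (q i) y ∧
        R.ρ (τ i) y.1.1 y.1.2 = 0 ∧ gR σ (cc (δ i)) y = 0 := by
      filter_upwards [hg, hT', h1.eventually_le_const r0] with i g t e
      obtain ⟨u, a1, a2⟩ := g.ch.ex 0 (by rwa [sub_zero])
      have a3 := g.ch.low 0 u (by simpa using r0.le) a1
      rw [zero_sub, map_neg, norm_neg, a2, sub_zero] at a3
      obtain ⟨y, a4, a5⟩ := g.boot h hk (hR.fρ _) hRp hB a1 (by rw [a2]; rfl)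
        (by rw [a2, Prod.snd_zero, Prod.fst_zero, val_zero]; exact Submodule.zero_mem _)
      obtain ⟨y₁, y₂, a6, a7⟩ := t.lift g.ct (g.dom u a1).1 (g.dom u a1).2 a4
      have a8 := (Gd.hf_eq h hk (hR.fρ _) hRp a4 a5).symm.trans a2
      exact ⟨y, y₁, y₂, by rwa [a6, add_sub_cancel_left], a7, a5, congrArg (·.2.2) a8, by
        rw [← val_gR h hk, show gr σ k _ _ = 0 from congrArg (·.2.1) a8, val_zero]⟩
    choose! y y₁ y₂ h3 using fun i (h : ∃ (y : σ.Pnt) (y₁ : σ₁.Pnt) (y₂ : σ₂.Pnt),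
        ‖((σ₁.pt k y₁, σ₂.pt k y₂) - (σ₁.pt k (xx (δ i)), σ₂.pt k (zz (δ i))) : E0 σ₁ σ₂ k)‖ ≤
          K * ‖P' i (Hf σ k (S.θ (δ i)) (q i) (R.ρ (τ i)) (cc (δ i)) 0)‖ ∧
        S.Agr (δ i) (3 * S.Λ (δ i) + 1) y y₁ y₂ ∧ σ.Sol (q i) y ∧
        R.ρ (τ i) y.1.1 y.1.2 = 0 ∧ gR σ (cc (δ i)) y = 0) => h
    have h3 := h2.mono h3
    have h4 := (squeeze_zero_norm' (h3.mono fun _ h => h.1) h1).add (tendsto_base hG hP k3 hS.lg)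
    simp only [sub_add_cancel, zero_add] at h4
    have h5 := (tendsto_iff_norm_sub_tendsto_zero.1 h4).const_mul 3
    rw [mul_zero] at h5
    have n : ∀ {X : Mf 4} {nc nr : ℕ} {T : Type} [NormedAddCommGroup T]
        {s : Pz X 0 fun i => d.e (ty i)} {σ : Cel s nc nr T} (y y' : σ.Pnt),
        0 ≤ σ.dk (k + 1) y y' := fun _ _ =>
      add_nonneg (add_nonneg (nrm_nonneg _ _) (nrm_nonneg _ _)) (norm_nonneg _)
    refine ⟨y, _, _, hNr s s₁ s₂ σ σ₁ σ₂ S x z xx zz cc hG hP (k + 1) ι l δ y y₁ y₂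
      (squeeze_zero (fun _ => n _ _) (fun i => (Pb50.dk_le_norm hG.ok₁.toOK (cr_of hG.ok₁) k3 _
        _).trans (mul_le_mul_of_nonneg_left (le_max_left _ _) (by norm_num))) h5)
      (squeeze_zero (fun _ => n _ _) (fun i => (Pb50.dk_le_norm hG.ok₂.toOK (cr_of hG.ok₂) k3 _
        _).trans (mul_le_mul_of_nonneg_left (le_max_right _ _) (by norm_num))) h5)
      ?_, h3.mono fun _ h => h.2.2⟩
    filter_upwards [h3, (Sp.len hS.lg).eventually_gt_atTop 0] with i a b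
    exact ⟨_, by linarith, a.2.1⟩
  · obtain ⟨u, a1, a2⟩ := small hCp hG hP hk hS.lg hT' hy
    obtain ⟨u', b1, b2⟩ := small hCp hG hP hk hS.lg hT' hy'
    filter_upwards [hg, a1.eventually_le_const r0, b1.eventually_le_const r0, a2, b2]
      with i g a3 b3 ⟨a4, a5⟩ ⟨b4, b5⟩ c1 c2 c3 c4 c5 c6
    have e1 := g.ch.low _ _ a3 b3
    rw [zero a4 c1 c2 c3, zero b4 c4 c5 c6, sub_self, map_zero, norm_zero, mul_zero] at e1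
    obtain ⟨B, hB'⟩ := g.ch.inv
    have e2 := hB' (u i - u' i)
    rw [le_antisymm e1 (norm_nonneg _), mul_zero, norm_le_zero_iff, sub_eq_zero] at e2
    rw [e2, b5] at a5
    exact ⟨Pb50.pt_inj h.toOK (cr_of h) k3 (by rw [a4, b4, e2]),
      (sub_left_injective (congrArg Prod.fst a5)).symm,
      (sub_left_injective (congrArg Prod.snd a5)).symm⟩
  · obtain ⟨u, a1, a2⟩ := small hCp hG hP hk hS.lg hT' hy
    filter_upwards [hg, a1.eventually_le_const r0, a2] with i g a3 a4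
    exact g.onto h hk (hR.fρ _) hFr a3 a4.1
  · obtain ⟨u, a1, a2⟩ := small hCp hG hP hk hS.lg hT' hy
    obtain ⟨u', b1, b2⟩ := small hCp hG hP hk hS.lg hT' hy'
    have a0 := (a1.const_mul K).const_mul K
    have b0 := (b1.const_mul K).const_mul K
    rw [mul_zero, mul_zero] at a0 b0
    filter_upwards [hg, a1.eventually_le_const r0, b1.eventually_le_const r0, a2, b2,
      a0.eventually_le_const r0, b0.eventually_le_const r0] with i g a3 b3 a4 b4 a5 b5 c1 c2 c3 c4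
    exact g.uniq h hk (hR.fρ _) hRp hB hA hFr hI hR.ff hK a3 b3 a5 b5 a4.1 b4.1 c1 c3 c2 c4

end Crest.Agent.X212.Gls64
end
end

-- ▼ part X212/Gls64/Fin

/-!
# Row 212, GL-FIN (helper64): the gluing theorem from its leaves
-/

set_option autoImplicit false
set_option linter.unusedSectionVars false
noncomputable section
open scoped Manifold ContDiff Topology InnerProductSpace
open MeasureTheory Set Function Filter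

namespace Crest.Agent.X212.Gls64
open An Cyf70 Prm93 Sw
open M (Mf)

variable {κ lam ν : Type} [Fintype κ] [Fintype lam] [Fintype ν] [DecidableEq ν]
  {d : Dt κ lam ν} {X X₁ X₂ : Mf 4} {nc nr n₁ r₁ n₂ r₂ m : ℕ}
  {T T₁ T₂ : Type} [NormedAddCommGroup T] [NormedSpace ℝ T] [FiniteDimensional ℝ T]
  [NormedAddCommGroup T₁] [NormedSpace ℝ T₁] [FiniteDimensional ℝ T₁]
  [NormedAddCommGroup T₂] [NormedSpace ℝ T₂] [FiniteDimensional ℝ T₂]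

section sp
variable {N : Type} [Fintype N] {ty : N → d.𝓔} {s : Pz X 0 fun i => d.e (ty i)}
  {s₁ : Pz X₁ 0 fun i => d.e (ty i)} {s₂ : Pz X₂ 0 fun i => d.e (ty i)} {σ : Cel s nc nr T}
  {σ₁ : Cel s₁ n₁ r₁ T₁} {σ₂ : Cel s₂ n₂ r₂ T₂} {k : ℕ} {S : Sp X X₁ X₂ nc n₁ n₂ T T₁ T₂}
  {x : σ₁.Pnt} {z : σ₂.Pnt} {ι : Type} {l : Filter ι} {δ : ι → ℝ × ℝ} {y y' : ι → σ.Pnt}
  {t₁ t₁' : ι → T₁} {t₂ t₂' : ι → T₂} {R : Rw κ ν X X₁ nr r₁ r₂ m T T₁}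
  {f : T → Cfg X.M κ ν → ℝ}

theorem Sp.Nr.mono (h : S.Nr k l δ y t₁ t₂ x z) {j : ℕ} (hj : j ≤ k) : S.Nr j l δ y t₁ t₂ x z :=
  ⟨h.t, h.l₁, h.l₂, fun w hw => h.c₁ w (hw.trans hj), fun w hw => h.c₂ w (hw.trans hj)⟩

theorem Sp.Nr.congr (h : S.Nr k l δ y t₁ t₂ x z)
    (e : ∀ᶠ i in l, y' i = y i ∧ t₁' i = t₁ i ∧ t₂' i = t₂ i) : S.Nr k l δ y' t₁' t₂' x z :=
  ⟨(h.t.and e).mono fun i a => by rw [a.2.1, a.2.2.1, a.2.2.2, a.1],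
    h.l₁.congr' (e.mono fun _ a => a.2.1.symm), h.l₂.congr' (e.mono fun _ a => a.2.2.symm),
    fun w hw => (h.c₁ w hw).congr' (e.mono fun i a => by simp only [a.1, a.2.1]),
    fun w hw => (h.c₂ w hw).congr' (e.mono fun i a => by simp only [a.1, a.2.2])⟩

theorem Rw.Sq.congr {τ τ' : ι → ℝ} (h : R.Sq S l δ τ) (e : ∀ᶠ i in l, τ i = τ' i) :
    R.Sq S l δ τ' :=
  ⟨h.lg, (h.A.and e).mono fun _ a => a.2 ▸ a.1, h.off.congr' (e.mono fun _ a => by simp only [a])⟩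

theorem Rw.Sq.mono {τ : ι → ℝ} (h : R.Sq S l δ τ) {l' : Filter ι} (e : l' ≤ l) : R.Sq S l' δ τ :=
  ⟨h.lg.mono_left e, e h.A, h.off.mono_left e⟩

theorem Sp.Nr.mem (h : S.Nr k l δ y t₁ t₂ x z) (hG : S.Geo σ σ₁ σ₂) :
    ∀ᶠ i in l, t₁ i ∈ σ₁.Q ∧ t₂ i ∈ σ₂.Q ∧ (y i).1.1 = S.θ (δ i) (t₁ i, t₂ i) :=
  (h.l₁.eventually (hG.ok₁.opn.mem_nhds x.2.1)).and
    ((h.l₂.eventually (hG.ok₂.opn.mem_nhds z.2.1)).and h.t)

variable (S σ x z f k) in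
/-- the conclusion of the gluing theorem, symmetric form -/
def GlAt (q₀ : d.W →₀ ℝ) : Prop :=
  (∀ (ι : Type) (𝒰 : Ultrafilter ι) q y, St.Cv (𝒰 : Filter ι) q q₀ →
    (∀ᶠ i in (𝒰 : Filter ι), σ.Sol (q i) (y i)) → S.Deg 𝒰 y x z →
    ∀ᶠ i in (𝒰 : Filter ι), Trv σ k (q i) f (y i)) ∧
  ∀ 𝒰 : Ultrafilter ℝ, (𝒰 : Filter ℝ) ≤ 𝓝[<] 1 →
    (∃ y : ℝ → σ.Pnt, (∀ᶠ τ in (𝒰 : Filter ℝ), σ.Sol q₀ (y τ) ∧ f (y τ).1.1 (y τ).1.2 = τ) ∧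
      S.Deg 𝒰 y x z) ∧
    ∀ y y' : ℝ → σ.Pnt, (∀ᶠ τ in (𝒰 : Filter ℝ), σ.Sol q₀ (y τ) ∧ f (y τ).1.1 (y τ).1.2 = τ) →
      (∀ᶠ τ in (𝒰 : Filter ℝ), σ.Sol q₀ (y' τ) ∧ f (y' τ).1.1 (y' τ).1.2 = τ) →
      S.Deg 𝒰 y x z → S.Deg 𝒰 y' x z → ∀ᶠ τ in (𝒰 : Filter ℝ), σ.Eqv (y τ) (y' τ)

theorem glAt_swap {q₀ : d.W →₀ ℝ} (h : GlAt σ k S.swap z x f q₀) : GlAt σ k S x z f q₀ := by
  simpa only [GlAt, Gl50.deg_swap_iff] using h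

variable {xx : ℝ × ℝ → σ₁.Pnt} {zz : ℝ × ℝ → σ₂.Pnt} {cc : ℝ × ℝ → σ.Pnt} (hG : S.Geo σ σ₁ σ₂)
  (hP : S.Pre x z xx zz cc)
include hG hP

theorem exists_sq (hS : R.Sh S σ x z f) (h : S.Deg l y x z) : ∃ y' t₁ t₂ δ,
    (∀ᶠ i in l, σ.Eqv (y i) (y' i)) ∧ R.Sq S l δ (fun i => f (y' i).1.1 (y' i).1.2) ∧
      ∀ k, S.Nr k l δ y' t₁ t₂ x z := by
  obtain ⟨y', t₁, t₂, δ, h1, h2, h3⟩ := h
  obtain ⟨y₁, y₂, a1, a2, a3⟩ := Gl50.cpStmt d ty X X₁ X₂ nc nr n₁ r₁ n₂ r₂ T T₁ T₂ s s₁ s₂ σ σ₁ σ₂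
    S hG x z xx zz cc hP 8 (by norm_num) ι l δ y' t₁ t₂ h2 (h3 8)
  exact ⟨y', t₁, t₂, δ, h1.mono fun _ a => a.1, hS.dg ι l δ y' y₁ y₂ h2 a1 a2
    ((h1.and a3).mono fun _ a => ⟨a.1.2, a.2.2.2⟩), h3⟩

theorem glAt (hC : CoreStmt d ty X X₁ X₂ nc nr n₁ r₁ n₂ r₂ T T₁ T₂)
    (hRp : RepStmt d ty X nc nr T) (hA : AxStmt d ty X nc nr T) (hI : σ.Ind 1)
    (hR : R.OK S σ x z f) (hS : R.Sh S σ x z f) (hk : 7 ≤ k) {q₀ : d.W →₀ ℝ} (hx : σ₁.Sol q₀ x)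
    (hz : σ₂.Sol q₀ z) (ix : ∀ j, k ≤ j → IsoAt σ₁ j q₀ x) (iz : ∀ j, k ≤ j → IsoAt σ₂ j q₀ z) :
    GlAt σ k S x z f q₀ := by
  have core := fun j (hj : k ≤ j) => hC s s₁ s₂ σ σ₁ σ₂ S hG hI x z xx zz cc hP m R f hR j
    (hk.trans hj) q₀ hx hz (ix j hj) (iz j hj)
  obtain ⟨Γ, hΓ, he⟩ := hA s σ hG.ok 1 hI k hk
  have sol := (hRp s σ hG.ok k hk).2.2.1
  have se : ∀ {q y y'}, σ.Sol q y → σ.Eqv y y' → σ.Sol q y' := fun {q y y'} a b =>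
    (sol q y').2 (hΓ.sol_eqv (x := ⟨(), y⟩) (y := ⟨(), y'⟩) ((eqv_iff Γ 1 he).2 b) ((sol q y).1 a))
  have nrm : ∀ {l : Filter ℝ} {y : ℝ → σ.Pnt},
      (∀ᶠ τ in l, σ.Sol q₀ (y τ) ∧ f (y τ).1.1 (y τ).1.2 = τ) → S.Deg l y x z → ∃ y' t₁ t₂ δ,
      (∀ᶠ τ in l, σ.Eqv (y τ) (y' τ) ∧ σ.Sol q₀ (y' τ) ∧ f (y' τ).1.1 (y' τ).1.2 = τ) ∧
        R.Sq S l δ id ∧ S.Nr (k + 1) l δ y' t₁ t₂ x z := fun a b => by
    obtain ⟨y', t₁, t₂, δ, h1, h2, h3⟩ := exists_sq hG hP hS b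
    have h4 := (h1.and a).mono fun τ a => (⟨a.1, se a.2.1 a.1,
      (hR.ff.2 _ _ a.1.1 a.1.2).trans a.2.2⟩ : _ ∧ _ ∧ f (y' τ).1.1 (y' τ).1.2 = τ)
    exact ⟨y', t₁, t₂, δ, h4, h2.congr (h4.mono fun _ a => a.2.2), h3 _⟩
  refine ⟨fun ι 𝒰 q y hq hy hd => ?_, fun 𝒰 h𝒰 => ⟨?_, fun y y' hy hy' hd hd' => ?_⟩⟩
  · obtain ⟨y', t₁, t₂, δ, h1, h2, h3⟩ := exists_sq hG hP hS hd
    filter_upwards [(core k le_rfl ι 𝒰 δ _ q h2 hq).tr y' t₁ t₂ (h3 _), h1, hy, h2.A,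
      h2.lg.eventually (hR.trv k hk), (h3 0).mem hG] with i a1 a2 a3 a4 a5 ⟨b1, b2, b3⟩
    exact Gl67.tr_eqv hΓ (invF hk Γ 1 he hR.ff) rfl trivial (x := ⟨(), y i⟩) (x' := ⟨(), y' i⟩)
      ((sol _ _).1 (se a3 a2)) (a5 _ a4 _ _ _ b1 _ b2 b3 a1) ((eqv_iff Γ 1 he).2 (he.symm a2))
  · obtain ⟨δ, h1⟩ := hS.ex
    have h1 := h1.mono h𝒰
    have c := fun j hj => core j hj ℝ 𝒰 δ id _ h1 (St.cv_const _ q₀)
    obtain ⟨y, t₁, t₂, a1, a2⟩ := (c k le_rfl).ex inferInstance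
    refine ⟨y, ?_, y, t₁, t₂, δ, a2.mono fun _ a => ⟨he.refl _, a.1.2⟩, h1.lg, fun j => ?_⟩
    · filter_upwards [a2, a1.mem hG, h1.A, h1.lg.eventually hR.lev] with τ a ⟨b1, b2, b3⟩ a4 a5
      exact ⟨a.1, (a5 _ a4 _ _ b1 _ b2 b3).1 a.2.1⟩
    · obtain ⟨y', t₁', t₂', b1, b2⟩ := (c (k + j) (by omega)).ex inferInstance
      refine (b1.congr ?_).mono (by omega)
      filter_upwards [(c k le_rfl).u0 _ _ _ _ _ _ a1 (b1.mono (by omega)), a2, b2] with τ e a b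
      exact e a.1 a.2.1 a.2.2 b.1 b.2.1 b.2.2
  · obtain ⟨w, t₁, t₂, δ, a1, a2, a3⟩ := nrm hy hd
    obtain ⟨w', t₁', t₂', δ', b1, b2, b3⟩ := nrm hy' hd'
    have b4 := hS.uq ℝ 𝒰 δ δ' id a2 b2 (k + 1) (by omega) w' t₁' t₂' b3
    filter_upwards [(core k le_rfl ℝ 𝒰 δ id _ a2 (St.cv_const _ q₀)).u1 _ _ _ _ _ _ a3 b4, a1, b1,
      a3.mem hG, b4.mem hG, a2.A, a2.lg.eventually hR.lev]
      with τ e a b ⟨c1, c2, c3⟩ ⟨d1, d2, d3⟩ a4 a5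
    exact he.trans a.1 (he.trans (e a.2.1 ((a5 _ a4 _ _ c1 _ c2 c3).2 a.2.2) b.2.1
      ((a5 _ a4 _ _ d1 _ d2 d3).2 b.2.2)) (he.symm b.1))

end sp

variable [Fintype d.𝓔] {Sl : Type} [Fintype Sl]

theorem exists_nk {s : StS d Sl X} {s₁ : StS d Sl X₁} {s₂ : StS d Sl X₂} {σ : Cel s nc nr T}
    {σ₁ : Cel s₁ n₁ r₁ T₁} {σ₂ : Cel s₂ n₂ r₂ T₂} {p : Spl X X₁ X₂ nc n₁ n₂ d Sl T T₁ T₂}
    (h : p.OK σ σ₁ σ₂) : (∃ K ∈ s₁.nk (p.ε, p.aL), K.Inf true) ∧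
      ∃ K ∈ s₂.nk (p.ε, p.aR), K.Inf false := by
  obtain ⟨l, hl⟩ := h.cut ∅
  obtain ⟨t₁, m₁⟩ := h.okL.ne
  obtain ⟨t₂, m₂⟩ := h.okR.ne
  obtain ⟨δ, h1, h2⟩ : ∃ δ ∈ p.Δ, l ≤ δ.2 - δ.1 := by
    rcases h.kind with ⟨-, -, -, -, -, -, a, -⟩ | ⟨-, -, -, -, a, -⟩ | ⟨-, -, -, -, a, -⟩ |
      ⟨-, -, -, -, a⟩
    · exact let ⟨δ, b, _⟩ := a l; ⟨δ, b.1, b.2.ge⟩
    · exact ⟨(0, l), by simp [a], by simp⟩
    · exact ⟨(-l, 0), by simp [a], by simp⟩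
    · exact ⟨(0, l), by simp [a], by simp⟩
  obtain ⟨-, -, -, ⟨-, ⟨_, -, K₁, a1, a2, -⟩, -⟩, -, ⟨_, -, K₂, b1, b2, -⟩, -⟩ :=
    hl δ h1 h2 t₁ m₁ t₂ m₂
  exact ⟨(Pb50.inf_iff h.okL.toOK m₁ _ _).1 ⟨K₁, a1, a2⟩,
    (Pb50.inf_iff h.okR.toOK m₂ _ _).1 ⟨K₂, b1, b2⟩⟩

/-- **GL-FIN** -/
theorem glStmt (hC : CoreStmt d (Prod.fst : d.𝓔 × Sl → _) X X₁ X₂ nc nr n₁ r₁ n₂ r₂ T T₁ T₂)
    (hC' : CoreStmt d (Prod.fst : d.𝓔 × Sl → _) X X₂ X₁ nc nr n₂ r₂ n₁ r₁ T T₂ T₁)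
    (hRp : RepStmt d (Prod.fst : d.𝓔 × Sl → _) X nc nr T)
    (hA : AxStmt d (Prod.fst : d.𝓔 × Sl → _) X nc nr T)
    (hI₁ : IsoStmt d (Prod.fst : d.𝓔 × Sl → _) X₁ n₁ r₁ T₁)
    (hI₂ : IsoStmt d (Prod.fst : d.𝓔 × Sl → _) X₂ n₂ r₂ T₂)
    (hL₁ : LiftStmt d (Prod.fst : d.𝓔 × Sl → _) X₁ n₁ r₁ T₁)
    (hL₂ : LiftStmt d (Prod.fst : d.𝓔 × Sl → _) X₂ n₂ r₂ T₂)
    (hM : MtStmt d X X₁ X₂ nc nr n₁ r₁ n₂ r₂ T T₁ T₂ Sl)
    (hP : PreStmt d X X₁ X₂ nc nr n₁ r₁ n₂ r₂ T T₁ T₂ Sl)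
    (hR : RwStmt d X X₁ X₂ nc nr n₁ r₁ n₂ r₂ T T₁ T₂ Sl) :
    GlStmt d Sl X X₁ X₂ nc nr n₁ r₁ n₂ r₂ T T₁ T₂ := by
  intro s s₁ s₂ σ σ₁ σ₂ p hg hp i₁ i₂ hI k hk q₀ x z hx hz rx rz
  obtain ⟨⟨K₁, k₁, j₁⟩, K₂, k₂, j₂⟩ := exists_nk hp
  have hG : (sp p (ht K₁ true) (ht K₂ false)).Geo σ σ₁ σ₂ := ⟨hp.ok, hp.okL, hp.okR,
    Fht9.htStmt _ _ _ _ _ _ _ _ _ _ _ _ _ _ s s₁ s₂ σ σ₁ σ₂ p hg hp K₁ k₁ K₂ k₂ j₁ j₂, fun J =>
      (Gl50.faceStmt _ _ _ _ _ _ s₁ σ₁ hp.okL _ _ K₁ k₁ j₁ J).and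
        ((Gl50.faceStmt _ _ _ _ _ _ s₂ σ₂ hp.okR _ _ K₂ k₂ j₂ J).and
          (hM s s₁ s₂ σ σ₁ σ₂ p hg hp K₁ k₁ K₂ k₂ j₁ j₂ J))⟩
  obtain ⟨xx, zz, cc, hP⟩ := hP s s₁ s₂ σ σ₁ σ₂ p hg hp K₁ k₁ K₂ k₂ j₁ j₂ x z
  have ix := hL₁ s₁ σ₁ hp.okL i₁ k hk q₀ x (hI₁ s₁ σ₁ hp.okL i₁ k hk q₀ x hx rx)
  have iz := hL₂ s₂ σ₂ hp.okR i₂ k hk q₀ z (hI₂ s₂ σ₂ hp.okR i₂ k hk q₀ z hz rz)
  have key : GlAt σ k (sp p (ht K₁ true) (ht K₂ false)) x z (σ.wf p.wl) q₀ := by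
    rcases hR s s₁ s₂ σ σ₁ σ₂ p hg hp K₁ k₁ K₂ k₂ j₁ j₂ x z hx.2 hz.2 with
      ⟨m, R, h1, h2⟩ | ⟨m, R, h1, h2⟩
    · exact glAt hG hP hC hRp hA hI h1 h2 hk hx hz ix iz
    · exact glAt_swap (glAt (Gl50.geo_swap hG) (Gl50.pre_swap hP) hC' hRp hA hI h1 h2 hk hz hx iz ix)
  have dg := Fht9.dgStmt _ _ _ _ _ _ _ _ _ _ _ _ _ _ s s₁ s₂ σ σ₁ σ₂ p hg hp K₁ k₁ K₂ k₂ j₁ j₂
  simp only [dg]
  exact key

end Crest.Agent.X212.Gls64
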